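import Vale.Agent.P046.Full.Base

/-!
P046, the cavity system of a finite graph has a solution.

With `u = 1 - exp (-s)` the system is autonomous on `[0,1]`; its right hand side, with the unknowns
clipped to `[0,1]`, is bounded by one, so one application of Picard-Lindelöf gives a solution,
and along it the clip is inactive.
-/

namespace Vale.Agent.P046.Full.Four

open Finset
open Vale.Agent.P046

lemma prod_mem_unit {ι : Type*} (s : Finset ι) (u : ι → ℝ) (hu : ∀ i ∈ s, 0 ≤ u i ∧ u i ≤ 1) :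
    0 ≤ ∏ i ∈ s, u i ∧ ∏ i ∈ s, u i ≤ 1 :=
  ⟨Finset.prod_nonneg fun i hi => (hu i hi).1,
    Finset.prod_le_one (fun i hi => (hu i hi).1) fun i hi => (hu i hi).2⟩

lemma abs_prod_sub_prod_le {ι : Type*} (s : Finset ι) (u v : ι → ℝ)
    (hu : ∀ i ∈ s, 0 ≤ u i ∧ u i ≤ 1) (hv : ∀ i ∈ s, 0 ≤ v i ∧ v i ≤ 1) :
    |∏ i ∈ s, u i - ∏ i ∈ s, v i| ≤ ∑ i ∈ s, |u i - v i| := by
  classical
  induction s using Finset.induction_on with
  | empty => simp
  | @insert a s ha ih =>
    rw [prod_insert ha, prod_insert ha, sum_insert ha]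
    have hu' := prod_mem_unit s u fun i hi => hu i (mem_insert_of_mem hi)
    have hua := hu a (mem_insert_self a s)
    have hva := hv a (mem_insert_self a s)
    have ih' := ih (fun i hi => hu i (mem_insert_of_mem hi))
      (fun i hi => hv i (mem_insert_of_mem hi))
    calc |u a * ∏ i ∈ s, u i - v a * ∏ i ∈ s, v i|
        = |(u a - v a) * (∏ i ∈ s, u i) + v a * (∏ i ∈ s, u i - ∏ i ∈ s, v i)| := by
          congr 1; ring
      _ ≤ |(u a - v a) * (∏ i ∈ s, u i)| + |v a * (∏ i ∈ s, u i - ∏ i ∈ s, v i)| := abs_add_le _ _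
      _ = |u a - v a| * (∏ i ∈ s, u i) + v a * |∏ i ∈ s, u i - ∏ i ∈ s, v i| := by
          rw [abs_mul, abs_mul, abs_of_nonneg hu'.1, abs_of_nonneg hva.1]
      _ ≤ |u a - v a| * 1 + 1 * ∑ i ∈ s, |u i - v i| := by
          gcongr
          · exact hu'.2
          · exact hva.2
      _ = _ := by ring

/-- The clip to the unit interval. -/
noncomputable def clip (x : ℝ) : ℝ := max 0 (min x 1)

lemma clip_mem (x : ℝ) : 0 ≤ clip x ∧ clip x ≤ 1 :=
  ⟨le_max_left _ _, max_le zero_le_one (min_le_right _ _)⟩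

lemma clip_of_mem {x : ℝ} (h0 : 0 ≤ x) (h1 : x ≤ 1) : clip x = x := by
  rw [clip, min_eq_left h1, max_eq_right h0]

lemma abs_clip_sub_le (x y : ℝ) : |clip x - clip y| ≤ |x - y| := by
  have h1 := abs_max_sub_max_le_max 0 (min x 1) 0 (min y 1)
  have h2 := abs_min_sub_min_le_max x 1 y 1
  simp only [sub_self, abs_zero] at h1 h2
  calc |clip x - clip y| ≤ max 0 |min x 1 - min y 1| := h1
    _ ≤ max 0 (max |x - y| 0) := max_le_max le_rfl h2
    _ = |x - y| := by simp [abs_nonneg]

/-- The clipped right hand side in the time `u = 1 - exp (-s)`. -/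
noncomputable def rhs {n : ℕ} (G : Gr n) (x : Finset (Fin n) × Finset (Fin n) → ℝ) :
    Finset (Fin n) × Finset (Fin n) → ℝ := fun p =>
  if p.2 ∈ tri G ∧ p.1 ∈ sides p.2 then
    ∏ b ∈ (sides p.2).erase p.1, ∏ E ∈ (tri G).filter (fun E => b ∈ sides E ∧ E ≠ p.2),
      (1 - clip (x (b, E)))
  else 0

lemma rhs_mem {n : ℕ} (G : Gr n) (x : Finset (Fin n) × Finset (Fin n) → ℝ)
    (p : Finset (Fin n) × Finset (Fin n)) : 0 ≤ rhs G x p ∧ rhs G x p ≤ 1 := by
  unfold rhs
  split_ifs
  · refine prod_mem_unit _ _ fun b _ => prod_mem_unit _ _ fun E _ => ?_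
    have := clip_mem (x (b, E))
    constructor <;> linarith
  · simp

lemma rhs_lip {n : ℕ} (G : Gr n) : ∃ K : NNReal, LipschitzWith K (rhs G) := by
  refine ⟨((Fintype.card (Finset (Fin n))) ^ 2 : ℕ), LipschitzWith.of_dist_le_mul fun x y => ?_⟩
  rw [dist_pi_le_iff (by positivity)]
  intro p
  rw [Real.dist_eq]
  by_cases hp : p.2 ∈ tri G ∧ p.1 ∈ sides p.2
  · simp only [rhs, if_pos hp]
    have hm : ∀ (z : Finset (Fin n) × Finset (Fin n) → ℝ) q,
        0 ≤ 1 - clip (z q) ∧ 1 - clip (z q) ≤ 1 := fun z q => by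
      have := clip_mem (z q)
      constructor <;> linarith
    refine (abs_prod_sub_prod_le _ _ _ (fun b _ => prod_mem_unit _ _ fun E _ => hm x _)
      (fun b _ => prod_mem_unit _ _ fun E _ => hm y _)).trans ?_
    calc ∑ b ∈ (sides p.2).erase p.1, |_ - _|
        ≤ ∑ b ∈ (sides p.2).erase p.1,
            ∑ E ∈ (tri G).filter (fun E => b ∈ sides E ∧ E ≠ p.2), dist x y := by
          refine sum_le_sum fun b _ => (abs_prod_sub_prod_le _ _ _ (fun E _ => hm x _)
            (fun E _ => hm y _)).trans (sum_le_sum fun E _ => ?_)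
          calc |1 - clip (x (b, E)) - (1 - clip (y (b, E)))|
              = |clip (y (b, E)) - clip (x (b, E))| := by congr 1; ring
            _ ≤ |y (b, E) - x (b, E)| := abs_clip_sub_le _ _
            _ = dist (x (b, E)) (y (b, E)) := by rw [Real.dist_eq, abs_sub_comm]
            _ ≤ dist x y := dist_le_pi_dist x y (b, E)
      _ ≤ ∑ b ∈ (sides p.2).erase p.1, (Fintype.card (Finset (Fin n)) : ℝ) * dist x y := by
          refine sum_le_sum fun b _ => ?_
          rw [sum_const, nsmul_eq_mul]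
          gcongr
          exact card_le_univ _
      _ ≤ (Fintype.card (Finset (Fin n)) : ℝ) * ((Fintype.card (Finset (Fin n)) : ℝ) * dist x y) := by
          rw [sum_const, nsmul_eq_mul]
          gcongr
          exact card_le_univ _
      _ = _ := by push_cast; ring
  · simp only [rhs, if_neg hp, sub_self, abs_zero]
    positivity

theorem cavExists : CavExistsStmt := by
  intro n G
  obtain ⟨K, hK⟩ := rhs_lip G
  let t₀ : Set.Icc (0 : ℝ) 1 := ⟨0, by simp⟩
  have hpl : IsPicardLindelof (fun _ => rhs G) t₀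
      (0 : Finset (Fin n) × Finset (Fin n) → ℝ) 1 0 1 K := by
    refine IsPicardLindelof.of_time_independent (fun x _ => ?_) hK.lipschitzOnWith ?_
    · rw [NNReal.coe_one, pi_norm_le_iff_of_nonneg zero_le_one]
      intro p
      rw [Real.norm_eq_abs, abs_of_nonneg (rhs_mem G x p).1]
      exact (rhs_mem G x p).2
    · simp [t₀]
  obtain ⟨α, hα0, hα⟩ := hpl.exists_eq_forall_mem_Icc_hasDerivWithinAt₀
  have hcomp : ∀ p, ∀ u ∈ Set.Icc (0 : ℝ) 1,
      HasDerivWithinAt (fun v => α v p) (rhs G (α u) p) (Set.Icc 0 1) u :=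
    fun p u hu => hasDerivWithinAt_pi.1 (hα u hu) p
  have h0 : ∀ p, α 0 p = 0 := fun p => by
    have : α 0 = 0 := hα0
    simp [this]
  have hbd : ∀ p, ∀ u ∈ Set.Icc (0 : ℝ) 1, 0 ≤ α u p ∧ α u p ≤ u := by
    intro p u hu
    have h0u : (0 : ℝ) ∈ Set.Icc (0 : ℝ) 1 := by simp
    constructor
    · have hm : MonotoneOn (fun v => α v p) (Set.Icc 0 1) :=
        monotoneOn_of_hasDerivWithinAt_nonneg (convex_Icc 0 1)
          (fun v hv => (hcomp p v hv).continuousWithinAt)
          (fun v hv => (hcomp p v (interior_subset hv)).mono interior_subset)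
          (fun v _ => (rhs_mem G (α v) p).1)
      simpa [h0] using hm h0u hu hu.1
    · have hm : MonotoneOn (fun v => v - α v p) (Set.Icc 0 1) :=
        monotoneOn_of_hasDerivWithinAt_nonneg (convex_Icc 0 1)
          (fun v hv => continuousWithinAt_id.sub (hcomp p v hv).continuousWithinAt)
          (fun v hv => (hasDerivWithinAt_id v _).sub
            ((hcomp p v (interior_subset hv)).mono interior_subset))
          (fun v _ => sub_nonneg.2 (rhs_mem G (α v) p).2)
      have := hm h0u hu hu.1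
      simp [h0] at this
      linarith
  refine ⟨fun a F s => α (1 - Real.exp (-s)) (a, F), fun a F hF ha => ⟨by simp [h0], ?_⟩⟩
  intro s hs
  have hmap : Set.MapsTo (fun v : ℝ => 1 - Real.exp (-v)) (Set.Ici 0) (Set.Icc 0 1) := by
    intro v hv
    have hv' : 0 ≤ v := hv
    have h1 : Real.exp (-v) ≤ 1 := Real.exp_le_one_iff.2 (by linarith)
    have h2 := Real.exp_pos (-v)
    constructor <;> linarith
  have hu := hmap (show s ∈ Set.Ici (0 : ℝ) from hs)
  refine ⟨hbd (a, F) _ hu, ?_⟩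
  have hd : HasDerivWithinAt (fun v : ℝ => 1 - Real.exp (-v)) (Real.exp (-s)) (Set.Ici 0) s := by
    have h := ((hasDerivAt_id s).neg.exp.const_sub 1).hasDerivWithinAt (s := Set.Ici 0)
    simpa using h
  have h := (hcomp (a, F) _ hu).comp s hd hmap
  refine h.congr_deriv ?_
  rw [mul_comm, rhs, if_pos ⟨hF, ha⟩]
  congr 1
  refine prod_congr rfl fun b _ => prod_congr rfl fun E _ => ?_
  obtain ⟨l, r⟩ := hbd (b, E) _ hu
  rw [clip_of_mem l (r.trans hu.2)]

end Vale.Agent.P046.Full.Four
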