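import Vale.Agent.P046.Full.Four.Bound

/-!
P046, the cavity marginals of one graph are close to those of the regular system when the
potentials are small: `sum |y - y0| <= y0 (kappa |G| + K D^1.1075 polylog (potU + potW + |G|/D^2))`.
-/

namespace Vale.Agent.P046.Full.Four

open Finset
open Vale.Agent.P046

variable {n : ℕ} {G : Gr n} {J : Finset (Fin n) → Finset (Fin n) → ℝ → ℝ} {θ D : ℝ}

/-- The differential inequality. -/
lemma deriv_total (hcert : CertFourStmt) (hJ : IsCav G J) (hθ : 0 < θ) (hθ1 : θ ≤ 1 / 8000)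
    (hD : 1 ≤ D) {t : ℝ} {s : ℝ} (hs : 0 ≤ s) (hst : s ≤ t) :
    ∑ g ∈ G, ((-∑ F ∈ tr G g, fire G J F s) * lr G J θ D g s +
        dtau D s * (1 + xs θ D G g) / 2 * (yv G J g s - yh θ D G g s)) ≤
      dtau D s * (301 / 500 * ∑ g ∈ G, hv G J θ D g s +
        7077888000 * Real.exp (10 * t) *
          (Real.exp (-(tau D s / 2)) * ∑ g ∈ small θ D G, wv G J θ D g s) +
        (500 * (Real.log (1 + 2 * D) ^ 2 * potW D G + 96 * Real.log (1 + 2 * D) ^ 4 * potU D G +
            2 * Real.log (1 + 2 * D) * bigSum θ D G) +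
          3 * (Real.log (1 + 2 * D) + 1) * bigSum θ D G +
          3538944000 * Real.exp (10 * t) *
            (2 * (G.card : ℝ) * Real.log (1 + 2 * D) ^ 2 / D ^ 2 +
              (Real.log (1 + 2 * D) ^ 2 + t) * bigSum θ D G))) := by
  set T := Real.log (1 + 2 * D) with hT
  set y0 := Real.exp (-(tau D s / 2)) with hy0
  have hD0 : 0 < D := by linarith
  have ht : 0 ≤ t := hs.trans hst
  have hτ := dtau_nonneg (D := D) hD0.le hs
  have hT0 : 0 ≤ T := Real.log_nonneg (by linarith)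
  have hw : ∀ b, 0 ≤ wv G J θ D b s := fun b => (wv_mem hJ hD b hs).1
  refine (deriv_step hcert hJ hD hs).trans ?_
  -- the edge terms
  have hE : ∑ g ∈ G, (601 / 1000 * hv G J θ D g s * ((∑ F ∈ tr G g, ev G θ D g F s) / D) +
        1 / 2 * res G θ D g s * (yh θ D G g s - yv G J g s)) ≤
      301 / 500 * ∑ g ∈ G, hv G J θ D g s +
        500 * (T ^ 2 * potW D G + 96 * T ^ 4 * potU D G + 2 * T * bigSum θ D G) +
        3 * (T + 1) * bigSum θ D G := by
    refine (sum_le_sum fun g _ => edge_bound hJ hθ hθ1 hD hs g).trans ?_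
    rw [sum_ite, ← mul_sum, sum_add_distrib, ← mul_sum, ← mul_sum]
    have h1 : ∑ g ∈ small θ D G, hv G J θ D g s ≤ ∑ g ∈ G, hv G J θ D g s :=
      sum_le_sum_of_subset_of_nonneg (filter_subset _ _) fun g _ _ => hv_nonneg hJ g hs
    have h2 := sum_res_sq (G := G) hθ hθ1 hD hs
    simp only [small] at h1 h2
    rw [bigSum] at h2 ⊢
    linarith
  -- the excess terms
  have hF : ∑ F ∈ tri G, ph G θ D F s * excess J F s ^ 2 ≤
      4 * 1179648 * Real.exp (10 * t) * dtau D s * (y0 * (2 * ∑ g ∈ small θ D G, wv G J θ D g s) +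
        (2 * (G.card : ℝ) * T ^ 2 / D ^ 2 + (T ^ 2 + t) * bigSum θ D G)) := by
    have h1 : ∑ F ∈ tri G, ph G θ D F s * excess J F s ^ 2 ≤
        ∑ F ∈ tri G, 4 * dtau D s / D * y0 * (1179648 * Real.exp (10 * t) *
          (T ^ 2 / D ^ 2 + ∑ b ∈ sides F, wv G J θ D b s)) := by
      refine sum_le_sum fun F hF => mul_le_mul (ph_le hθ (by linarith) hD hs hF)
        (excess_sq_le hJ hθ (by linarith) hD hF hs hst) (sq_nonneg _) ?_
      exact mul_nonneg (div_nonneg (by linarith) hD0.le) (Real.exp_pos _).le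
    refine h1.trans ?_
    rw [← mul_sum, ← mul_sum, sum_add_distrib, sum_const, nsmul_eq_mul, sum_tri_sides]
    simp only [nsmul_eq_mul]
    have h2 : ((tri G).card : ℝ) * (T ^ 2 / D ^ 2) + ∑ g ∈ G, (deg G g : ℝ) * wv G J θ D g s ≤
        D * (2 * ∑ g ∈ small θ D G, wv G J θ D g s) +
        D * (2 * (G.card : ℝ) * T ^ 2 / D ^ 2 + (T ^ 2 + t) * bigSum θ D G) := by
      refine le_trans (add_le_add (mul_le_mul_of_nonneg_right (sum_tri_sides_le G)
        (by positivity)) le_rfl) ?_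
      rw [sum_mul, ← sum_add_distrib]
      calc ∑ g ∈ G, ((deg G g : ℝ) * (T ^ 2 / D ^ 2) + (deg G g : ℝ) * wv G J θ D g s)
          ≤ ∑ g ∈ G, (if |xg D G g| ≤ eta θ D then 2 * D * wv G J θ D g s
              else D * ((T ^ 2 + t) * (1 + |xg D G g|) ^ 2)) +
            ∑ _g ∈ G, 2 * D * (T ^ 2 / D ^ 2) := by
            rw [← sum_add_distrib]
            refine sum_le_sum fun g _ => ?_
            split_ifs with h
            · have hd := deg_le_of_small hθ (by linarith) hD h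
              have a1 : (deg G g : ℝ) * (T ^ 2 / D ^ 2) ≤ 2 * D * (T ^ 2 / D ^ 2) :=
                mul_le_mul_of_nonneg_right hd (by positivity)
              have a2 := mul_le_mul_of_nonneg_right hd (hw g)
              linarith
            · have hd : (deg G g : ℝ) ≤ D * (1 + |xg D G g|) ^ 2 := by
                rw [deg_eq hD]
                refine mul_le_mul_of_nonneg_left ?_ hD0.le
                nlinarith [le_abs_self (xg D G g), abs_nonneg (xg D G g)]
              have hw1 : wv G J θ D g s ≤ t := (wv_mem hJ hD g hs).2.trans hst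
              have hT2 : T ^ 2 / D ^ 2 ≤ T ^ 2 :=
                div_le_self (sq_nonneg T) (one_le_pow₀ hD)
              have h0 : 0 ≤ 2 * D * (T ^ 2 / D ^ 2) := by positivity
              have a3 : (deg G g : ℝ) * (T ^ 2 / D ^ 2 + wv G J θ D g s) ≤
                  D * (1 + |xg D G g|) ^ 2 * (T ^ 2 + t) :=
                mul_le_mul hd (by linarith) (add_nonneg (by positivity) (hw g)) (by positivity)
              linarith
        _ = _ := by
            rw [sum_ite, sum_const, nsmul_eq_mul, ← mul_sum, ← mul_sum, ← mul_sum, bigSum]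
            simp only [small]
            field_simp
            ring
    have hy1 : y0 ≤ 1 := Real.exp_le_one_iff.2 (by linarith [tau_nonneg (D := D) hD0.le hs])
    have hb : 0 ≤ 2 * (G.card : ℝ) * T ^ 2 / D ^ 2 + (T ^ 2 + t) * bigSum θ D G :=
      add_nonneg (by positivity) (mul_nonneg (by positivity) bigSum_nonneg)
    have hc : 0 ≤ 4 * dtau D s / D * y0 := by positivity
    calc 4 * dtau D s / D * y0 * (1179648 * Real.exp (10 * t) *
          (((tri G).card : ℝ) * (T ^ 2 / D ^ 2) + ∑ g ∈ G, (deg G g : ℝ) * wv G J θ D g s))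
        ≤ 4 * dtau D s / D * y0 * (1179648 * Real.exp (10 * t) *
          (D * (2 * ∑ g ∈ small θ D G, wv G J θ D g s) +
            D * (2 * (G.card : ℝ) * T ^ 2 / D ^ 2 + (T ^ 2 + t) * bigSum θ D G))) :=
          mul_le_mul_of_nonneg_left (mul_le_mul_of_nonneg_left h2 (by positivity)) hc
      _ = 4 * 1179648 * Real.exp (10 * t) * dtau D s *
          (y0 * (2 * ∑ g ∈ small θ D G, wv G J θ D g s) +
            y0 * (2 * (G.card : ℝ) * T ^ 2 / D ^ 2 + (T ^ 2 + t) * bigSum θ D G)) := by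
          field_simp
      _ ≤ _ := by
          refine mul_le_mul_of_nonneg_left ?_ (by positivity)
          linarith [mul_le_of_le_one_left hb hy1]
  have hE' := mul_le_mul_of_nonneg_left hE hτ
  have hF' := mul_le_mul_of_nonneg_left hF (by norm_num : (0 : ℝ) ≤ 750)
  linarith

/-- The inhomogeneous part of the inequality. -/
noncomputable def force (θ D : ℝ) (G : Gr n) (t : ℝ) : ℝ :=
  (1 + Real.log (1 + 2 * D)) ^ 6 *
    (potU D G + potW D G + (G.card : ℝ) / D ^ 2) *
    (48500 + 7077888000 * Real.exp (10 * t) +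
      24 / θ ^ 4 * (1006 + 3538944000 * Real.exp (10 * t) * (1 + t)))

lemma force_nonneg (hD : 1 ≤ D) {t : ℝ} (ht : 0 ≤ t) : 0 ≤ force θ D G t := by
  have := Real.log_nonneg (show (1 : ℝ) ≤ 1 + 2 * D by linarith)
  have h1 : 0 ≤ potU D G := potU_nonneg
  have h2 : 0 ≤ potW D G := potW_nonneg
  have h3 : 0 ≤ θ ^ 4 := Even.pow_nonneg (by norm_num) θ
  have h4 : 0 ≤ (G.card : ℝ) / D ^ 2 := by positivity
  unfold force
  positivity

lemma le_force (hθ : 0 < θ) (hθ1 : θ ≤ 1) (hD : 1 ≤ D) {t : ℝ} (ht : 0 ≤ t) :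
    500 * (Real.log (1 + 2 * D) ^ 2 * potW D G + 96 * Real.log (1 + 2 * D) ^ 4 * potU D G +
        2 * Real.log (1 + 2 * D) * bigSum θ D G) +
      3 * (Real.log (1 + 2 * D) + 1) * bigSum θ D G +
      3538944000 * Real.exp (10 * t) *
        (2 * (G.card : ℝ) * Real.log (1 + 2 * D) ^ 2 / D ^ 2 +
          (Real.log (1 + 2 * D) ^ 2 + t) * bigSum θ D G) ≤ force θ D G t := by
  set T := Real.log (1 + 2 * D) with hT
  set c := 3538944000 * Real.exp (10 * t) with hc
  have hc0 : 0 ≤ c := by positivity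
  have hT0 : 0 ≤ T := Real.log_nonneg (by linarith)
  have hU : 0 ≤ potU D G := potU_nonneg
  have hW : 0 ≤ potW D G := potW_nonneg
  have hN : 0 ≤ (G.card : ℝ) / D ^ 2 := by positivity
  have hB : 0 ≤ bigSum θ D G := bigSum_nonneg
  set S := (1 + T) ^ 2 with hS
  have hS1 : 1 ≤ S := one_le_pow₀ (by linarith)
  have hS2 : T ^ 2 ≤ S := pow_le_pow_left₀ hT0 (by linarith) 2
  have hS3 : T ≤ S := le_trans (by linarith) (le_self_pow₀ (by linarith : (1 : ℝ) ≤ 1 + T) two_ne_zero)
  have hS4 : S ^ 2 ≤ S ^ 3 := pow_le_pow_right₀ hS1 (by norm_num)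
  have hS5 : S ≤ S ^ 3 := le_self_pow₀ hS1 (by norm_num)
  have hTS : T ^ 4 ≤ S ^ 3 := by
    calc T ^ 4 = (T ^ 2) ^ 2 := by ring
      _ ≤ S ^ 2 := pow_le_pow_left₀ (sq_nonneg T) hS2 2
      _ ≤ S ^ 3 := hS4
  have hcoef : 500 * (2 * T) + 3 * (T + 1) + c * (T ^ 2 + t) ≤ (1006 + c * (1 + t)) * S := by
    have h1 := mul_le_mul_of_nonneg_left hS2 hc0
    have h2 : c * t * 1 ≤ c * t * S := mul_le_mul_of_nonneg_left hS1 (mul_nonneg hc0 ht)
    linarith
  have hbig : (500 * (2 * T) + 3 * (T + 1) + c * (T ^ 2 + t)) * bigSum θ D G ≤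
      (1006 + c * (1 + t)) * S * (24 * (1 + T) ^ 4 / θ ^ 4 * potU D G) :=
    mul_le_mul hcoef (bigSum_le hθ hθ1 hD) hB (by positivity)
  have hbig' : (1006 + c * (1 + t)) * S * (24 * (1 + T) ^ 4 / θ ^ 4 * potU D G) =
      24 / θ ^ 4 * (1006 + c * (1 + t)) * S ^ 3 * potU D G := by
    rw [hS]; ring
  have a1 : T ^ 2 * potW D G ≤ S ^ 3 * potW D G :=
    mul_le_mul_of_nonneg_right (hS2.trans hS5) hW
  have a2 : T ^ 4 * potU D G ≤ S ^ 3 * potU D G := mul_le_mul_of_nonneg_right hTS hU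
  have a3 : T ^ 2 * ((G.card : ℝ) / D ^ 2) ≤ S ^ 3 * ((G.card : ℝ) / D ^ 2) :=
    mul_le_mul_of_nonneg_right (hS2.trans hS5) hN
  have a4 := mul_le_mul_of_nonneg_left a3 (by positivity : 0 ≤ 2 * c)
  have a5 : 2 * (G.card : ℝ) * T ^ 2 / D ^ 2 = 2 * (T ^ 2 * ((G.card : ℝ) / D ^ 2)) := by ring
  have hfeq : force θ D G t = S ^ 3 * (potU D G + potW D G + (G.card : ℝ) / D ^ 2) *
      (48500 + 2 * c + 24 / θ ^ 4 * (1006 + c * (1 + t))) := by
    rw [force, hS, hc]; ring
  have hK : 0 ≤ 24 / θ ^ 4 * (1006 + c * (1 + t)) := by positivity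
  have b1 : 0 ≤ (48000 + 2 * c + 24 / θ ^ 4 * (1006 + c * (1 + t))) * (S ^ 3 * potW D G) := by
    positivity
  have b2 : 0 ≤ (500 + 2 * c) * (S ^ 3 * potU D G) := by positivity
  have b3 : 0 ≤ (48500 + 24 / θ ^ 4 * (1006 + c * (1 + t))) *
      (S ^ 3 * ((G.card : ℝ) / D ^ 2)) := by positivity
  rw [hfeq, a5]
  linarith

lemma exp_neg_half_tau_mul_le (hD : 0 < D) {s : ℝ} (hs : 0 ≤ s) :
    (Real.exp (-(tau D s / 2)) * s) ^ 2 ≤ s * Real.exp s / (2 * D) := by
  have h5 : Real.exp (-(tau D s / 2)) ^ 2 = Real.exp (-tau D s) := by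
    rw [← Real.exp_nat_mul]; congr 1; push_cast; ring
  rw [mul_pow, h5, exp_neg_tau hD.le hs]
  have hP : 2 * D * (Real.exp (-s) * s) ≤ Pt D s := by
    have h1 : Real.exp (-s) * s ≤ 1 - Real.exp (-s) := by
      have h2 : Real.exp (-s) * (s + 1) ≤ Real.exp (-s) * Real.exp s :=
        mul_le_mul_of_nonneg_left (Real.add_one_le_exp s) (Real.exp_pos _).le
      rw [← Real.exp_add, neg_add_cancel, Real.exp_zero] at h2
      linarith
    have := mul_le_mul_of_nonneg_left h1 (by positivity : (0 : ℝ) ≤ 2 * D)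
    unfold Pt; linarith
  have hPpos : 0 < Pt D s := by linarith [one_le_Pt hD.le hs]
  rw [inv_mul_eq_div, div_le_div_iff₀ hPpos (by positivity)]
  have := mul_le_mul_of_nonneg_left hP (mul_nonneg hs (Real.exp_pos s).le)
  calc s ^ 2 * (2 * D) = s * Real.exp s * (2 * D * (Real.exp (-s) * s)) := by
        rw [Real.exp_neg]; field_simp
    _ ≤ _ := this

/-- The solution of the differential inequality. -/
theorem entropy_le (hcert : CertFourStmt) (hJ : IsCav G J) (hθ : 0 < θ) (hθ1 : θ ≤ 1 / 8000)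
    (hD : 1 ≤ D) {t : ℝ} (ht : 0 ≤ t)
    (hbig : t * Real.exp t * (7077888000000 * Real.exp (10 * t)) ^ 2 ≤ 2 * D) :
    ∑ g ∈ G, hv G J θ D g t ≤
      250 * force θ D G t * Real.exp (243 / 400 * tau D t) := by
  have hD0 : 0 < D := by linarith
  set a : ℝ := 243 / 400 with ha
  set c := 7077888000 * Real.exp (10 * t) with hc
  have hc0 : 0 < c := by positivity
  set Fc := force θ D G t with hFc
  have hF0 : 0 ≤ Fc := force_nonneg hD ht
  set V : ℝ → ℝ := fun v => ∑ g ∈ G, hv G J θ D g v with hV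
  set U : ℝ → ℝ := fun v => V v * Real.exp (-(a * tau D v)) with hU
  have hVd : ∀ v, 0 ≤ v → HasDerivWithinAt V
      (∑ g ∈ G, ((-∑ F ∈ tr G g, fire G J F v) * lr G J θ D g v +
        dtau D v * (1 + xs θ D G g) / 2 * (yv G J g v - yh θ D G g v))) (Set.Ici 0) v :=
    fun v hv => HasDerivWithinAt.fun_sum fun g _ => hasDeriv_hv hJ hD g hv
  have hed : ∀ v, 0 ≤ v → HasDerivWithinAt (fun w => Real.exp (-(a * tau D w)))
      (Real.exp (-(a * tau D v)) * (-(a * dtau D v))) (Set.Ici 0) v :=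
    fun v hv => (((hasDeriv_tau hD0.le hv).const_mul a).neg.exp).hasDerivWithinAt
  have hUc : ContinuousOn U (Set.Icc 0 t) := fun v hv =>
    (((hVd v hv.1).mul (hed v hv.1)).continuousWithinAt).mono Set.Icc_subset_Ici_self
  obtain ⟨σ, hσ, hmax⟩ := isCompact_Icc.exists_isMaxOn (Set.nonempty_Icc.2 ht) hUc
  have hU0 : U 0 = 0 := by simp [hU, hV, hv_zero hJ]
  set M := U σ with hM
  have hM0 : 0 ≤ M := by
    rw [← hU0]; exact hmax (Set.left_mem_Icc.2 ht)
  have hVeq : ∀ v, V v = U v * Real.exp (a * tau D v) := fun v => by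
    simp only [hU]
    rw [mul_assoc, ← Real.exp_add, neg_add_cancel, Real.exp_zero, mul_one]
  suffices hMF : M ≤ 250 * Fc by
    calc ∑ g ∈ G, hv G J θ D g t = U t * Real.exp (a * tau D t) := hVeq t
      _ ≤ 250 * Fc * Real.exp (a * tau D t) :=
          mul_le_mul_of_nonneg_right ((hmax (Set.right_mem_Icc.2 ht)).trans hMF)
            (Real.exp_pos _).le
  rcases eq_or_lt_of_le hσ.1 with h0 | hσ0
  · have : M = 0 := by rw [hM, ← h0]; exact hU0
    linarith
  -- at the maximum the derivative from the left is nonnegative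
  set V' := ∑ g ∈ G, ((-∑ F ∈ tr G g, fire G J F σ) * lr G J θ D g σ +
        dtau D σ * (1 + xs θ D G g) / 2 * (yv G J g σ - yh θ D G g σ)) with hV'
  have hUd : HasDerivWithinAt U
      (V' * Real.exp (-(a * tau D σ)) + V σ * (Real.exp (-(a * tau D σ)) * (-(a * dtau D σ))))
      (Set.Icc 0 σ) σ :=
    ((hVd σ hσ.1).mul (hed σ hσ.1)).mono Set.Icc_subset_Ici_self
  have hsign : 0 ≤ V' * Real.exp (-(a * tau D σ)) +
      V σ * (Real.exp (-(a * tau D σ)) * (-(a * dtau D σ))) := by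
    have hloc : IsLocalMaxOn U (Set.Icc 0 σ) σ :=
      (hmax.on_subset (Set.Icc_subset_Icc_right hσ.2)).localize
    have hy : (0 : ℝ) - σ ∈ posTangentConeAt (Set.Icc 0 σ) σ :=
      sub_mem_posTangentConeAt_of_segment_subset
        ((convex_Icc 0 σ).segment_subset (Set.right_mem_Icc.2 hσ.1) (Set.left_mem_Icc.2 hσ.1))
    have h := hloc.hasFDerivWithinAt_nonpos hUd.hasFDerivWithinAt hy
    simp only [ContinuousLinearMap.toSpanSingleton_apply, smul_eq_mul, zero_sub, neg_mul,
      neg_nonpos] at h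
    exact (mul_nonneg_iff_of_pos_left hσ0).1 h
  have hge : a * dtau D σ * V σ ≤ V' := by
    have h : 0 ≤ Real.exp (-(a * tau D σ)) * (V' - a * dtau D σ * V σ) := by linarith
    have := (mul_nonneg_iff_of_pos_left (Real.exp_pos _)).1 h
    linarith
  -- the bound on the accumulated entropy
  set E := Real.exp (a * tau D σ) with hE
  have hW : ∑ g ∈ small θ D G, wv G J θ D g σ ≤ σ * (M * E) := by
    have hder : ∀ v ∈ Set.Icc (0 : ℝ) σ,
        HasDerivWithinAt (fun w => w * (M * E) - ∑ g ∈ small θ D G, wv G J θ D g w)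
          (1 * (M * E) - ∑ g ∈ small θ D G, hbar G J θ D g v) (Set.Icc 0 σ) v := fun v _ =>
      (((hasDerivAt_id v).mul_const _).sub
        (HasDerivAt.fun_sum fun g _ => hasDeriv_wv hJ hD g v)).hasDerivWithinAt
    have hm : MonotoneOn (fun w => w * (M * E) - ∑ g ∈ small θ D G, wv G J θ D g w)
        (Set.Icc 0 σ) := by
      refine monotoneOn_of_hasDerivWithinAt_nonneg (convex_Icc 0 σ)
        (fun v hv => (hder v hv).continuousWithinAt)
        (fun v hv => (hder v (interior_subset hv)).mono interior_subset) fun v hv => ?_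
      have hv' := interior_subset hv
      have h1 : ∑ g ∈ small θ D G, hbar G J θ D g v ≤ V v := by
        refine le_trans (sum_le_sum fun g _ => ?_) (sum_le_sum_of_subset_of_nonneg
          (filter_subset _ _) fun g _ _ => hv_nonneg hJ g hv'.1)
        rw [hbar, max_eq_left hv'.1]
        exact min_le_left _ _
      have h2 : V v ≤ M * E := by
        rw [hVeq v]
        exact mul_le_mul (hmax ⟨hv'.1, hv'.2.trans hσ.2⟩)
          (Real.exp_le_exp.2 (mul_le_mul_of_nonneg_left (tau_mono hD0.le hv'.1 hv'.2) (by norm_num [ha])))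
          (Real.exp_pos _).le hM0
      linarith
    have h := hm (Set.left_mem_Icc.2 hσ.1) (Set.right_mem_Icc.2 hσ.1) hσ.1
    simp only [wv_zero, sum_const_zero, zero_mul, sub_zero] at h
    linarith
  have hsmall : c * (Real.exp (-(tau D σ / 2)) * σ) ≤ 1 / 1000 := by
    have h1 := exp_neg_half_tau_mul_le hD0 hσ.1
    have h2 : σ * Real.exp σ ≤ t * Real.exp t :=
      mul_le_mul hσ.2 (Real.exp_le_exp.2 hσ.2) (Real.exp_pos _).le ht
    have h3 : (c * 1000 * (Real.exp (-(tau D σ / 2)) * σ)) ^ 2 ≤ 1 := by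
      rw [mul_pow]
      refine le_trans (mul_le_mul_of_nonneg_left h1 (sq_nonneg _)) ?_
      rw [← mul_div_assoc, div_le_one (by positivity)]
      refine le_trans (mul_le_mul_of_nonneg_left h2 (sq_nonneg _)) (le_trans (le_of_eq ?_) hbig)
      rw [hc]; ring
    have h4 : |c * 1000 * (Real.exp (-(tau D σ / 2)) * σ)| ≤ 1 :=
      abs_le_one_iff_mul_self_le_one.2 (by rwa [← sq])
    linarith [(abs_le.1 h4).2]
  have hd := deriv_total hcert hJ hθ hθ1 hD hσ.1 hσ.2
  rw [← hV', ← hc] at hd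
  have hf := le_force (G := G) hθ (by linarith) hD ht
  have hsum : c * (Real.exp (-(tau D σ / 2)) * ∑ g ∈ small θ D G, wv G J θ D g σ) ≤
      1 / 1000 * (M * E) := by
    refine le_trans (mul_le_mul_of_nonneg_left
      (mul_le_mul_of_nonneg_left hW (Real.exp_pos _).le) hc0.le) ?_
    rw [← mul_assoc _ σ, ← mul_assoc c]
    exact mul_le_mul_of_nonneg_right hsmall (mul_nonneg hM0 (Real.exp_pos _).le)
  have hVσ : V σ = M * E := hVeq σ
  have hτpos := dtau_pos hD0 hσ.1
  have hfinal : dtau D σ * (a * (M * E)) ≤ dtau D σ * (603 / 1000 * (M * E) + Fc) := by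
    have hd2 : V' ≤ dtau D σ * (603 / 1000 * (M * E) + Fc) := by
      refine hd.trans (mul_le_mul_of_nonneg_left ?_ hτpos.le)
      have : ∑ g ∈ G, hv G J θ D g σ = M * E := hVσ
      linarith
    rw [hVσ] at hge
    calc dtau D σ * (a * (M * E)) = a * dtau D σ * (M * E) := by ring
      _ ≤ V' := hge
      _ ≤ _ := hd2
  have h5 := le_of_mul_le_mul_left hfinal hτpos
  have hE1 : 1 ≤ E := Real.one_le_exp (mul_nonneg (by norm_num [ha]) (tau_nonneg hD0.le hσ.1))
  have h6 : M ≤ M * E := le_mul_of_one_le_right hM0 hE1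
  rw [ha] at h5
  linarith

/-- The deterministic statement. -/
theorem cav_det (hcert : CertFourStmt) (t κ : ℝ) (ht : 0 ≤ t) (hκ : 0 < κ) :
    ∃ K D0 : ℝ, 0 ≤ K ∧ 1 ≤ D0 ∧ ∀ (n : ℕ) (G : Gr n)
      (J : Finset (Fin n) → Finset (Fin n) → ℝ → ℝ), IsCav G J → ∀ D ≥ D0,
      |cavTot G J t - Real.exp (-(tau D t / 2)) * (G.card : ℝ)| ≤
        Real.exp (-(tau D t / 2)) * (κ * (G.card : ℝ) +
          K * ((1 + 2 * D) ^ (443 / 400 : ℝ) * (1 + Real.log (1 + 2 * D)) ^ 6) *
            (potU D G + potW D G + (G.card : ℝ) / D ^ 2)) := by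
  set κ' := min κ 1 / 4 with hκ'
  have hκ'0 : 0 < κ' := div_pos (lt_min hκ one_pos) (by norm_num)
  have hκ'1 : κ' ≤ 1 := by linarith [min_le_right κ 1]
  set θ := min (κ / 2) (1 / 8000) with hθdef
  have hθ : 0 < θ := lt_min (by linarith) (by norm_num)
  have hθ1 : θ ≤ 1 / 8000 := min_le_right _ _
  set C := 48500 + 7077888000 * Real.exp (10 * t) +
      24 / θ ^ 4 * (1006 + 3538944000 * Real.exp (10 * t) * (1 + t)) with hC
  refine ⟨250 / κ' * C, max 1 (t * Real.exp t * (7077888000000 * Real.exp (10 * t)) ^ 2),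
    by positivity, le_max_left _ _, ?_⟩
  intro n G J hJ D hD
  have hD1 : 1 ≤ D := (le_max_left _ _).trans hD
  have hD0 : 0 < D := by linarith
  have hbig : t * Real.exp t * (7077888000000 * Real.exp (10 * t)) ^ 2 ≤ 2 * D := by
    linarith [le_max_right 1 (t * Real.exp t * (7077888000000 * Real.exp (10 * t)) ^ 2)]
  have hV := entropy_le hcert hJ hθ hθ1 hD1 ht hbig
  set y0 := Real.exp (-(tau D t / 2)) with hy0
  have hy00 : 0 < y0 := Real.exp_pos _
  have hedge : ∀ g ∈ G, |yv G J g t - y0| ≤ κ * y0 + hv G J θ D g t / κ' := by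
    intro g _
    have hyh := yh_pos (G := G) (θ := θ) (D := D) g t
    have h1 := abs_sub_one_le (rv_pos (θ := θ) (D := D) hJ g ht) hκ'0 hκ'1
    have h2 : |yv G J g t - yh θ D G g t| ≤ hv G J θ D g t / κ' + 2 * y0 * κ' := by
      have h3 := mul_le_mul_of_nonneg_left h1 hyh.le
      have h4 : yh θ D G g t * |rv G J θ D g t - 1| = |yv G J g t - yh θ D G g t| := by
        rw [← abs_of_pos hyh, ← abs_mul, abs_of_pos hyh, rv]
        congr 1; field_simp
      rw [h4, mul_add, ← mul_div_assoc, ← hv_eq hJ g ht] at h3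
      have := mul_le_mul_of_nonneg_right (yh_le (G := G) hθ (by linarith) hD1 ht g) hκ'0.le
      linarith
    have h5 := yh_sub_le (G := G) hθ (by linarith) hD1 ht g
    have h6 : θ * y0 ≤ κ / 2 * y0 := mul_le_mul_of_nonneg_right (min_le_left _ _) hy00.le
    have h7 : 2 * y0 * κ' ≤ κ / 2 * y0 := by
      have : κ' ≤ κ / 4 := by linarith [min_le_left κ 1]
      have := mul_le_mul_of_nonneg_left this hy00.le
      linarith
    have h8 := abs_sub_le (yv G J g t) (yh θ D G g t) y0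
    linarith
  have hexp : Real.exp (243 / 400 * tau D t) ≤ y0 * (1 + 2 * D) ^ (443 / 400 : ℝ) := by
    have hP : (0 : ℝ) < 1 + 2 * D := by linarith
    rw [Real.rpow_def_of_pos hP, hy0, ← Real.exp_add]
    refine Real.exp_le_exp.2 ?_
    have := tau_le (D := D) hD0.le ht
    linarith
  have hF0 : 0 ≤ force θ D G t := force_nonneg hD1 ht
  rw [cavTot_eq, show y0 * (G.card : ℝ) = ∑ _g ∈ G, y0 by rw [sum_const, nsmul_eq_mul]; ring,
    ← sum_sub_distrib]
  refine (abs_sum_le_sum_abs _ _).trans ((sum_le_sum hedge).trans ?_)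
  rw [sum_add_distrib, sum_const, nsmul_eq_mul, ← sum_div]
  have h9 : (∑ g ∈ G, hv G J θ D g t) / κ' ≤
      250 * force θ D G t * (y0 * (1 + 2 * D) ^ (443 / 400 : ℝ)) / κ' :=
    div_le_div_of_nonneg_right (hV.trans (mul_le_mul_of_nonneg_left hexp (by positivity))) hκ'0.le
  refine (add_le_add le_rfl h9).trans (le_of_eq ?_)
  rw [force, hC]
  field_simp

end Vale.Agent.P046.Full.Four
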