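import Vale.Agent.P046.Full.Four.Exists
import Vale.Agent.P046.Full.Four.Growth

/-!
P046, the cavity total at late time: `cavTot / n^{3/2}` tends to `cLim t` in mean under `MidData`.
-/

namespace Vale.Agent.P046.Full.Four

open Finset Filter Topology
open Vale.Agent.P046

/-- The amplification times the size of the inputs. -/
noncomputable def gain (D : ℝ) : ℝ :=
  (1 + 2 * D) ^ (443 / 400 : ℝ) * (1 + Real.log (1 + 2 * D)) ^ 6 * D ^ (-23 / 20 : ℝ)

lemma gain_le {D : ℝ} (hD : 1 ≤ D) :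
    gain D ≤ 257 ^ 6 * 9 * D ^ (-(19 / 1000) : ℝ) := by
  have hD0 : 0 < D := by linarith
  have h1 : (1 : ℝ) + 2 * D ≤ 3 * D := by linarith
  have h0 : (0 : ℝ) < 1 + 2 * D := by linarith
  have hlog : 1 + Real.log (1 + 2 * D) ≤ 257 * (3 * D) ^ (1 / 256 : ℝ) := by
    have h2 := Real.log_le_rpow_div h0.le (by norm_num : (0 : ℝ) < 1 / 256)
    have h3 : (1 + 2 * D) ^ (1 / 256 : ℝ) ≤ (3 * D) ^ (1 / 256 : ℝ) :=
      Real.rpow_le_rpow h0.le h1 (by norm_num)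
    have h4 : 1 ≤ (3 * D) ^ (1 / 256 : ℝ) := Real.one_le_rpow (by linarith) (by norm_num)
    linarith
  have hl0 : 0 ≤ 1 + Real.log (1 + 2 * D) := by
    linarith [Real.log_nonneg (show (1 : ℝ) ≤ 1 + 2 * D by linarith)]
  have h5 : (1 + 2 * D) ^ (443 / 400 : ℝ) * (1 + Real.log (1 + 2 * D)) ^ 6 ≤
      (3 * D) ^ (443 / 400 : ℝ) * (257 * (3 * D) ^ (1 / 256 : ℝ)) ^ 6 :=
    mul_le_mul (Real.rpow_le_rpow h0.le h1 (by norm_num)) (pow_le_pow_left₀ hl0 hlog 6)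
      (pow_nonneg hl0 6) (Real.rpow_nonneg (by linarith) _)
  have h6 : (3 * D) ^ (443 / 400 : ℝ) * (257 * (3 * D) ^ (1 / 256 : ℝ)) ^ 6 =
      257 ^ 6 * ((3 : ℝ) ^ (443 / 400 + 6 / 256 : ℝ) * D ^ (443 / 400 + 6 / 256 : ℝ)) := by
    rw [mul_pow, ← Real.rpow_natCast ((3 * D) ^ (1 / 256 : ℝ)), ← Real.rpow_mul (by linarith),
      mul_left_comm, ← Real.rpow_add (by linarith), Real.mul_rpow (by norm_num) hD0.le]
    norm_num
  have h7 : (3 : ℝ) ^ (443 / 400 + 6 / 256 : ℝ) ≤ 9 := by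
    calc (3 : ℝ) ^ (443 / 400 + 6 / 256 : ℝ) ≤ (3 : ℝ) ^ (2 : ℝ) :=
          Real.rpow_le_rpow_of_exponent_le (by norm_num) (by norm_num)
      _ = 9 := by norm_num
  have hp : (0 : ℝ) ≤ D ^ (-23 / 20 : ℝ) := Real.rpow_nonneg hD0.le _
  unfold gain
  calc (1 + 2 * D) ^ (443 / 400 : ℝ) * (1 + Real.log (1 + 2 * D)) ^ 6 * D ^ (-23 / 20 : ℝ)
      ≤ 257 ^ 6 * ((3 : ℝ) ^ (443 / 400 + 6 / 256 : ℝ) * D ^ (443 / 400 + 6 / 256 : ℝ)) *
          D ^ (-23 / 20 : ℝ) := mul_le_mul_of_nonneg_right (h5.trans h6.le) hp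
    _ ≤ 257 ^ 6 * (9 * D ^ (443 / 400 + 6 / 256 : ℝ)) * D ^ (-23 / 20 : ℝ) := by
        gcongr
    _ = 257 ^ 6 * 9 * (D ^ (443 / 400 + 6 / 256 : ℝ) * D ^ (-23 / 20 : ℝ)) := by ring
    _ ≤ _ := by
        refine mul_le_mul_of_nonneg_left ?_ (by positivity)
        rw [← Real.rpow_add hD0]
        exact Real.rpow_le_rpow_of_exponent_le hD (by norm_num)

lemma tendsto_gain : Tendsto gain atTop (𝓝 0) := by
  have h : Tendsto (fun D : ℝ => 257 ^ 6 * 9 * D ^ (-(19 / 1000) : ℝ)) atTop (𝓝 0) := by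
    have := (tendsto_rpow_neg_atTop (by norm_num : (0 : ℝ) < 19 / 1000)).const_mul (257 ^ 6 * 9 : ℝ)
    simpa using this
  refine squeeze_zero' ?_ ?_ h
  · filter_upwards [eventually_ge_atTop (1 : ℝ)] with D hD
    have := Real.log_nonneg (show (1 : ℝ) ≤ 1 + 2 * D by linarith)
    unfold gain
    positivity
  · filter_upwards [eventually_ge_atTop (1 : ℝ)] with D hD using gain_le hD

lemma tendsto_D1v : Tendsto D1v atTop atTop :=
  (tendsto_rpow_atTop (by norm_num : (0 : ℝ) < 9 / 10)).comp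
    (Real.tendsto_log_atTop.comp tendsto_natCast_atTop_atTop)

lemma tendsto_level {t : ℝ} (ht : 0 < t) :
    Tendsto (fun D : ℝ => Real.exp (-(tau D t / 2)) * Real.sqrt D / 2) atTop (𝓝 (cLim t)) := by
  have hw : 0 < 1 - Real.exp (-t) := by
    have : Real.exp (-t) < 1 := Real.exp_lt_one_iff.2 (by linarith)
    linarith
  have h1 : Tendsto (fun D : ℝ => (Real.sqrt (D⁻¹ + 2 * (1 - Real.exp (-t))))⁻¹ / 2) atTop
      (𝓝 ((Real.sqrt (0 + 2 * (1 - Real.exp (-t))))⁻¹ / 2)) := by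
    refine Tendsto.div_const (Tendsto.inv₀ ?_ ?_) 2
    · exact (tendsto_inv_atTop_zero.add_const _).sqrt
    · exact (Real.sqrt_pos.2 (by linarith)).ne'
  have h2 : (Real.sqrt (0 + 2 * (1 - Real.exp (-t))))⁻¹ / 2 = cLim t := by
    rw [cLim, zero_add]; field_simp
  rw [h2] at h1
  refine h1.congr' ?_
  filter_upwards [eventually_gt_atTop (0 : ℝ)] with D hD
  have hP : 0 < Pt D t := by linarith [one_le_Pt hD.le ht.le]
  have hy : Real.exp (-(tau D t / 2)) = (Real.sqrt (Pt D t))⁻¹ := by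
    rw [← Real.sqrt_inv, ← exp_neg_tau hD.le ht.le]
    rw [show Real.exp (-tau D t) = Real.exp (-(tau D t / 2)) ^ 2 by
      rw [← Real.exp_nat_mul]; congr 1; push_cast; ring, Real.sqrt_sq (Real.exp_pos _).le]
  have hD' : D⁻¹ + 2 * (1 - Real.exp (-t)) = Pt D t / D := by
    rw [Pt]; field_simp
  rw [hy, hD', Real.sqrt_div hP.le, inv_div]
  ring

theorem cavLimit (h : CertFourStmt) : CavLimitStmt := by
  intro t C ε ht hε
  have hc : 0 < cLim t := by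
    have : Real.exp (-t) < 1 := Real.exp_lt_one_iff.2 (by linarith)
    rw [cLim]
    have := Real.sqrt_pos.2 (show (0 : ℝ) < 2 * (1 - Real.exp (-t)) by linarith)
    positivity
  set κ := min 1 (ε / (8 * (cLim t + 1))) with hκdef
  have hκ : 0 < κ := lt_min one_pos (by positivity)
  have hκ1 : κ ≤ 1 := min_le_left _ _
  have hκε : κ * (cLim t + 1) ≤ ε / 8 := by
    calc κ * (cLim t + 1) ≤ ε / (8 * (cLim t + 1)) * (cLim t + 1) :=
          mul_le_mul_of_nonneg_right (min_le_right _ _) (by linarith)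
      _ = ε / 8 := by field_simp
  obtain ⟨K, D0, hK, hD0, hdet⟩ := cav_det h t κ ht.le hκ
  refine ⟨κ, hκ, ?_⟩
  have e1 : ∀ᶠ D : ℝ in atTop, D0 ≤ D ∧ 4 * K * gain D ≤ κ ∧
      |Real.exp (-(tau D t / 2)) * Real.sqrt D / 2 - cLim t| ≤ min 1 (ε / 2) := by
    have hg : ∀ᶠ D : ℝ in atTop, 4 * K * gain D ≤ κ :=
      ((tendsto_gain.const_mul (4 * K)).eventually_le_const (by simpa using hκ))
    have hl := Metric.tendsto_nhds.1 (tendsto_level ht) (min 1 (ε / 2)) (lt_min one_pos (by linarith))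
    filter_upwards [eventually_ge_atTop D0, hg, hl] with D h1 h2 h3
    exact ⟨h1, h2, le_of_lt (by simpa [Real.dist_eq] using h3)⟩
  obtain ⟨N, hN⟩ := eventually_atTop.1 (tendsto_D1v.eventually e1)
  refine ⟨N, fun n hn μ hμ J hJ => ?_⟩
  obtain ⟨⟨hμ0, hμ1, -⟩, -, -, hU, hW, hcard, -⟩ := hμ
  obtain ⟨hDge, hgain, hlev⟩ := hN n hn
  set D := D1v n with hD
  set y0 := Real.exp (-(tau D t / 2)) with hy0
  set NN := (n : ℝ) * Real.sqrt n with hNN
  set L := y0 * Real.sqrt D / 2 with hL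
  set Z := K * ((1 + 2 * D) ^ (443 / 400 : ℝ) * (1 + Real.log (1 + 2 * D)) ^ 6) with hZ
  have hD1 : 1 ≤ D := hD0.trans hDge
  have hm : m0 n D = NN * Real.sqrt D / 2 := by rw [m0, hNN]
  have hm0 : 0 ≤ m0 n D := by rw [hm]; positivity
  have hNN0 : 0 ≤ NN := by positivity
  have hy00 : 0 < y0 := Real.exp_pos _
  have hlog := Real.log_nonneg (show (1 : ℝ) ≤ 1 + 2 * D by linarith)
  have hZ0 : 0 ≤ Z := by positivity
  -- averaging the deterministic bound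
  have hG : ∀ G, μ G * |cavTot G (J G) t - cLim t * NN| ≤
      y0 * κ * (μ G * (G.card : ℝ)) + y0 * Z * (μ G * potU D G) + y0 * Z * (μ G * potW D G) +
        y0 * Z / D ^ 2 * (μ G * (G.card : ℝ)) + y0 * (μ G * |(G.card : ℝ) - m0 n D|) +
        |y0 * m0 n D - cLim t * NN| * μ G := by
    intro G
    have h1 := hdet n G (J G) (hJ G) D hDge
    have h2 : |y0 * (G.card : ℝ) - y0 * m0 n D| = y0 * |(G.card : ℝ) - m0 n D| := by
      rw [← mul_sub, abs_mul, abs_of_pos hy00]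
    have h3 := abs_sub_le (cavTot G (J G) t) (y0 * (G.card : ℝ)) (cLim t * NN)
    have h4 := abs_sub_le (y0 * (G.card : ℝ)) (y0 * m0 n D) (cLim t * NN)
    have h5 : |cavTot G (J G) t - cLim t * NN| ≤
        y0 * (κ * (G.card : ℝ) + Z * (potU D G + potW D G + (G.card : ℝ) / D ^ 2)) +
          y0 * |(G.card : ℝ) - m0 n D| + |y0 * m0 n D - cLim t * NN| := by
      rw [hZ]; linarith
    refine (mul_le_mul_of_nonneg_left h5 (hμ0 G)).trans (le_of_eq ?_)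
    ring
  refine (sum_le_sum fun G _ => hG G).trans ?_
  simp only [sum_add_distrib, ← mul_sum]
  have hcard' : ∑ G, μ G * (G.card : ℝ) ≤ 2 * m0 n D := by
    have h1 : ∑ G, μ G * (G.card : ℝ) ≤ ∑ G, (μ G * |(G.card : ℝ) - m0 n D| + m0 n D * μ G) := by
      refine sum_le_sum fun G _ => ?_
      have := mul_le_mul_of_nonneg_left (le_abs_self ((G.card : ℝ) - m0 n D)) (hμ0 G)
      linarith
    rw [sum_add_distrib, ← mul_sum] at h1
    have h2 := mul_le_mul_of_nonneg_left hμ1 hm0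
    have h3 : κ * m0 n D ≤ 1 * m0 n D := mul_le_mul_of_nonneg_right hκ1 hm0
    linarith
  have hD23 : (0 : ℝ) ≤ D ^ (-23 / 20 : ℝ) := Real.rpow_nonneg (by linarith) _
  have hU' : ∑ G, μ G * potU D G ≤ m0 n D * D ^ (-23 / 20 : ℝ) :=
    hU.trans (mul_le_mul_of_nonneg_left
      (Real.rpow_le_rpow_of_exponent_le hD1 (by norm_num)) hm0)
  have hsq : (D ^ 2)⁻¹ ≤ D ^ (-23 / 20 : ℝ) := by
    rw [show (D ^ 2)⁻¹ = D ^ (-(2 : ℝ)) by
      rw [Real.rpow_neg (by linarith), Real.rpow_two]]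
    exact Real.rpow_le_rpow_of_exponent_le hD1 (by norm_num)
  have t1 : y0 * κ * ∑ G, μ G * (G.card : ℝ) ≤ y0 * κ * (2 * m0 n D) := by gcongr
  have t2 : y0 * Z * ∑ G, μ G * potU D G ≤ y0 * Z * (m0 n D * D ^ (-23 / 20 : ℝ)) := by gcongr
  have t3 : y0 * Z * ∑ G, μ G * potW D G ≤ y0 * Z * (m0 n D * D ^ (-23 / 20 : ℝ)) := by gcongr
  have t4 : y0 * Z / D ^ 2 * ∑ G, μ G * (G.card : ℝ) ≤
      y0 * Z * D ^ (-23 / 20 : ℝ) * (2 * m0 n D) := by
    rw [div_eq_mul_inv]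
    calc y0 * Z * (D ^ 2)⁻¹ * ∑ G, μ G * (G.card : ℝ) ≤ y0 * Z * (D ^ 2)⁻¹ * (2 * m0 n D) :=
          mul_le_mul_of_nonneg_left hcard' (by positivity)
      _ ≤ _ := mul_le_mul_of_nonneg_right (mul_le_mul_of_nonneg_left hsq (by positivity))
          (by positivity)
  have t5 : y0 * ∑ G, μ G * |(G.card : ℝ) - m0 n D| ≤ y0 * (κ * m0 n D) := by gcongr
  have t6 : |y0 * m0 n D - cLim t * NN| * ∑ G, μ G ≤ ε / 2 * NN := by
    refine (mul_le_of_le_one_right (abs_nonneg _) hμ1).trans ?_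
    rw [show y0 * m0 n D - cLim t * NN = (L - cLim t) * NN by rw [hm, hL]; ring, abs_mul,
      abs_of_nonneg hNN0]
    exact mul_le_mul_of_nonneg_right (hlev.trans (min_le_right _ _)) hNN0
  have hy0m : y0 * m0 n D ≤ (cLim t + 1) * NN := by
    rw [show y0 * m0 n D = L * NN by rw [hm, hL]; ring]
    refine mul_le_mul_of_nonneg_right ?_ hNN0
    linarith [(abs_le.1 (hlev.trans (min_le_left _ _))).2]
  have hyg : 4 * (Z * D ^ (-23 / 20 : ℝ)) ≤ κ := by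
    rw [hZ]
    refine le_trans (le_of_eq ?_) hgain
    rw [gain]; ring
  have hyg' := mul_le_mul_of_nonneg_left hyg (mul_nonneg hy00.le hm0)
  have hκy : κ * (y0 * m0 n D) ≤ κ * ((cLim t + 1) * NN) :=
    mul_le_mul_of_nonneg_left hy0m hκ.le
  have hκN : κ * (cLim t + 1) * NN ≤ ε / 8 * NN := mul_le_mul_of_nonneg_right hκε hNN0
  linarith

end Vale.Agent.P046.Full.Four
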