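import Vale.Agent.P046.Full.Four.Det

/-!
P046, the differential inequality for the entropy of the cavity marginals and its solution.
-/

namespace Vale.Agent.P046.Full.Four

open Finset
open Vale.Agent.P046

variable {n : ℕ} {G : Gr n} {J : Finset (Fin n) → Finset (Fin n) → ℝ → ℝ} {θ D : ℝ}

lemma mem_small {g : Finset (Fin n)} :
    g ∈ small θ D G ↔ g ∈ G ∧ |xg D G g| ≤ eta θ D := mem_filter

lemma sum_split (φ : Finset (Fin n) → ℝ) :
    ∑ g ∈ small θ D G, φ g + ∑ g ∈ G.filter (fun g => ¬|xg D G g| ≤ eta θ D), φ g =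
      ∑ g ∈ G, φ g := sum_filter_add_sum_filter_not G _ φ

lemma bigSum_nonneg : 0 ≤ bigSum θ D G := sum_nonneg fun _ _ => sq_nonneg _

lemma potU_nonneg : 0 ≤ potU D G := sum_nonneg fun _ _ => psiU_nonneg _

lemma potW_nonneg : 0 ≤ potW D G := sum_nonneg fun _ _ => sq_nonneg _

lemma bigSum_le (hθ : 0 < θ) (hθ1 : θ ≤ 1) (hD : 1 ≤ D) :
    bigSum θ D G ≤ 24 * (1 + Real.log (1 + 2 * D)) ^ 4 / θ ^ 4 * potU D G := by
  have hη := eta_pos (θ := θ) hθ hD
  have h1 : bigSum θ D G ≤
      ∑ g ∈ G.filter (fun g => ¬|xg D G g| ≤ eta θ D), 24 / eta θ D ^ 4 * psiU (xg D G g) :=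
    sum_le_sum fun g hg =>
      sq_le_psiU hη ((eta_le hθ hD).trans hθ1) (not_le.1 (mem_filter.1 hg).2)
  refine h1.trans ?_
  rw [← mul_sum]
  have h2 : 24 / eta θ D ^ 4 = 24 * (1 + Real.log (1 + 2 * D)) ^ 4 / θ ^ 4 := by
    rw [eta, div_pow, div_div_eq_mul_div]
  rw [h2]
  refine mul_le_mul_of_nonneg_left
    (sum_le_sum_of_subset_of_nonneg (filter_subset _ _) fun _ _ _ => psiU_nonneg _) ?_
  have : 0 ≤ (1 + Real.log (1 + 2 * D)) ^ 4 := by positivity
  positivity

/-- The residual at a small edge. -/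
lemma res_small (hθ : 0 < θ) (hθ1 : θ ≤ 1 / 8000) (hD : 1 ≤ D) {s : ℝ} (hs : 0 ≤ s)
    {g : Finset (Fin n)} (hg : |xg D G g| ≤ eta θ D) :
    |res G θ D g s| ≤ 1 / 1000 ∧
    res G θ D g s ^ 2 ≤ Real.log (1 + 2 * D) ^ 2 * om D G g ^ 2 +
      4 * Real.log (1 + 2 * D) ^ 4 / D * ∑ f ∈ nbrs G g, xs θ D G f ^ 4 +
      Real.log (1 + 2 * D) / D * ∑ f ∈ nbrs G g, |xg D G f - xs θ D G f| := by
  set T := Real.log (1 + 2 * D) with hT
  have hD0 : 0 < D := by linarith
  have hτ0 := tau_nonneg (D := D) hD0.le hs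
  have hτT : tau D s ≤ T := tau_le hD0.le hs
  have hd := deg_le_of_small hθ (by linarith) hD hg
  have hres : res G θ D g s = (∑ F ∈ tr G g, ev G θ D g F s - (deg G g : ℝ)) / D := by
    rw [res, xs, if_pos hg, deg_eq hD]; field_simp
  have hsub := sum_ev_sub (G := G) hθ (by linarith) hD hs g
  have hsmall : |res G θ D g s| ≤ 4 * θ := by
    rw [hres, abs_div, abs_of_pos hD0, div_le_iff₀ hD0]
    refine hsub.trans ?_
    nlinarith
  refine ⟨by linarith, ?_⟩
  set R1 := ∑ F ∈ tr G g, (ev G θ D g F s - 1 + tau D s / 2 * ∑ b ∈ (sides F).erase g, xs θ D G b)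
    with hR1
  set N2 := ∑ f ∈ nbrs G g, xs θ D G f ^ 2 with hN2
  set Nb := ∑ f ∈ nbrs G g, (xg D G f - xs θ D G f) with hNb
  have hR1le : |R1| ≤ T ^ 2 / 2 * N2 := by
    rw [hR1, hN2, sum_nbrs, mul_sum]
    refine (abs_sum_le_sum_abs _ _).trans (sum_le_sum fun F hF => ?_)
    have hz := ev_arg_le hθ hD hs hF
    have h1 := Real.abs_exp_sub_one_sub_id_le (hz.trans (by linarith))
    have h2 : (∑ b ∈ (sides F).erase g, xs θ D G b) ^ 2 ≤
        2 * ∑ b ∈ (sides F).erase g, xs θ D G b ^ 2 := by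
      have := sq_sum_le_card_mul_sum_sq (s := (sides F).erase g) (f := xs θ D G)
      rw [card_erase_side (mem_tr.1 hF).1 (mem_tr.1 hF).2] at this
      exact_mod_cast this
    have h3 : 0 ≤ ∑ b ∈ (sides F).erase g, xs θ D G b ^ 2 := sum_nonneg fun _ _ => sq_nonneg _
    calc |ev G θ D g F s - 1 + tau D s / 2 * ∑ b ∈ (sides F).erase g, xs θ D G b|
        ≤ (-(tau D s / 2 * ∑ b ∈ (sides F).erase g, xs θ D G b)) ^ 2 := by
          refine le_trans (le_of_eq ?_) h1
          rw [ev, sub_neg_eq_add]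
      _ = tau D s ^ 2 / 4 * (∑ b ∈ (sides F).erase g, xs θ D G b) ^ 2 := by ring
      _ ≤ T ^ 2 / 4 * (2 * ∑ b ∈ (sides F).erase g, xs θ D G b ^ 2) :=
          mul_le_mul (by gcongr) h2 (sq_nonneg _) (by positivity)
      _ = _ := by ring
  have hsum : ∑ f ∈ nbrs G g, xs θ D G f = D * om D G g - Nb := by
    rw [hNb, sum_sub_distrib, om]; field_simp; ring
  have hdec : res G θ D g s = (R1 / D - tau D s / 2 * om D G g) + tau D s / (2 * D) * Nb := by
    rw [hres, hR1, sum_add_distrib, sum_sub_distrib, ← mul_sum, ← sum_nbrs, hsum, ← card_tr]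
    simp only [sum_const, nsmul_eq_mul, mul_one]
    field_simp
    ring
  have habs : |res G θ D g s| ≤
      |R1 / D - tau D s / 2 * om D G g| + |tau D s / (2 * D) * Nb| := by
    rw [hdec]; exact abs_add_le _ _
  refine (sq_le_of_le_add (by linarith) habs).trans ?_
  have hb : 2 * |tau D s / (2 * D) * Nb| ≤ T / D * ∑ f ∈ nbrs G g, |xg D G f - xs θ D G f| := by
    rw [abs_mul, abs_of_nonneg (by positivity), ← mul_assoc]
    refine mul_le_mul ?_ (abs_sum_le_sum_abs _ _) (abs_nonneg _)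
      (div_nonneg (le_trans hτ0 hτT) hD0.le)
    rw [show 2 * (tau D s / (2 * D)) = tau D s / D by field_simp]
    gcongr
  have hN : N2 ^ 2 ≤ 4 * D * ∑ f ∈ nbrs G g, xs θ D G f ^ 4 := by
    refine (sq_sum_le_card_mul_sum_sq).trans ?_
    rw [card_nbrs]
    have : ∀ f, (xs θ D G f ^ 2) ^ 2 = xs θ D G f ^ 4 := fun f => by ring
    simp only [this]
    exact mul_le_mul_of_nonneg_right (by linarith) (sum_nonneg fun f _ => by positivity)
  have ha : (R1 / D) ^ 2 ≤ T ^ 4 / D * ∑ f ∈ nbrs G g, xs θ D G f ^ 4 := by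
    have h1 : R1 ^ 2 ≤ (T ^ 2 / 2 * N2) ^ 2 := by
      rw [← sq_abs]; exact pow_le_pow_left₀ (abs_nonneg _) hR1le 2
    have h2 : (T ^ 2 / 2 * N2) ^ 2 ≤ T ^ 4 / 4 * (4 * D * ∑ f ∈ nbrs G g, xs θ D G f ^ 4) := by
      rw [mul_pow, show (T ^ 2 / 2) ^ 2 = T ^ 4 / 4 by ring]
      exact mul_le_mul_of_nonneg_left hN (by positivity)
    rw [div_pow, div_le_iff₀ (by positivity)]
    refine (h1.trans h2).trans (le_of_eq ?_)
    field_simp
  have hom : (tau D s / 2 * om D G g) ^ 2 ≤ T ^ 2 / 4 * om D G g ^ 2 := by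
    rw [mul_pow, show (tau D s / 2) ^ 2 = tau D s ^ 2 / 4 by ring]
    gcongr
  have hsq : 2 * (R1 / D - tau D s / 2 * om D G g) ^ 2 ≤
      4 * (R1 / D) ^ 2 + 4 * (tau D s / 2 * om D G g) ^ 2 := by
    nlinarith [sq_nonneg (R1 / D + tau D s / 2 * om D G g)]
  have h4 : 4 * T ^ 4 / D * ∑ f ∈ nbrs G g, xs θ D G f ^ 4 =
      4 * (T ^ 4 / D * ∑ f ∈ nbrs G g, xs θ D G f ^ 4) := by ring
  linarith

lemma sum_res_sq (hθ : 0 < θ) (hθ1 : θ ≤ 1 / 8000) (hD : 1 ≤ D) {s : ℝ} (hs : 0 ≤ s) :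
    ∑ g ∈ small θ D G, res G θ D g s ^ 2 ≤ Real.log (1 + 2 * D) ^ 2 * potW D G +
      96 * Real.log (1 + 2 * D) ^ 4 * potU D G + 2 * Real.log (1 + 2 * D) * bigSum θ D G := by
  set T := Real.log (1 + 2 * D) with hT
  have hD0 : 0 < D := by linarith
  have hT0 : 0 ≤ T := Real.log_nonneg (by linarith)
  refine (sum_le_sum fun g hg => (res_small hθ hθ1 hD hs (mem_small.1 hg).2).2).trans ?_
  refine (sum_le_sum_of_subset_of_nonneg (filter_subset _ _) fun g _ _ => ?_).trans ?_
  · have h1 : 0 ≤ ∑ f ∈ nbrs G g, xs θ D G f ^ 4 := sum_nonneg fun f _ => by positivity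
    have h2 : 0 ≤ ∑ f ∈ nbrs G g, |xg D G f - xs θ D G f| := sum_nonneg fun f _ => abs_nonneg _
    positivity
  rw [sum_add_distrib, sum_add_distrib, ← mul_sum, ← mul_sum, ← mul_sum, sum_sum_nbrs,
    sum_sum_nbrs]
  have h4 : ∑ f ∈ G, (deg G f : ℝ) * xs θ D G f ^ 4 ≤ 12 * D * potU D G := by
    rw [potU, mul_sum]
    refine sum_le_sum fun f _ => ?_
    unfold xs
    split_ifs with h
    · have hd := deg_le_of_small hθ (by linarith) hD h
      have := pow_four_le_psiU (le_trans h ((eta_le hθ hD).trans (by linarith)))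
      calc (deg G f : ℝ) * xg D G f ^ 4 ≤ 2 * D * (6 * psiU (xg D G f)) :=
            mul_le_mul hd this (by positivity) (by positivity)
        _ = _ := by ring
    · simpa using mul_nonneg (by positivity : 0 ≤ 12 * D) (psiU_nonneg (xg D G f))
  have h1 : ∑ f ∈ G, (deg G f : ℝ) * |xg D G f - xs θ D G f| ≤ D * bigSum θ D G := by
    rw [bigSum, sum_filter, mul_sum]
    refine sum_le_sum fun f _ => ?_
    rw [xs, deg_eq hD]
    split_ifs with h
    · simp
    · rw [sub_zero, mul_assoc]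
      refine mul_le_mul_of_nonneg_left ?_ hD0.le
      nlinarith [le_abs_self (xg D G f), abs_nonneg (xg D G f)]
  have e1 : 4 * T ^ 4 / D * (2 * ∑ f ∈ G, (deg G f : ℝ) * xs θ D G f ^ 4) ≤
      4 * T ^ 4 / D * (2 * (12 * D * potU D G)) := by gcongr
  have e2 : T / D * (2 * ∑ f ∈ G, (deg G f : ℝ) * |xg D G f - xs θ D G f|) ≤
      T / D * (2 * (D * bigSum θ D G)) := by gcongr
  have e1' : 4 * T ^ 4 / D * (2 * (12 * D * potU D G)) = 96 * T ^ 4 * potU D G := by
    field_simp; ring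
  have e2' : T / D * (2 * (D * bigSum θ D G)) = 2 * T * bigSum θ D G := by field_simp
  rw [← potW.eq_def D G] at *
  linarith

/-- The contribution of one edge. -/
lemma edge_bound (hJ : IsCav G J) (hθ : 0 < θ) (hθ1 : θ ≤ 1 / 8000) (hD : 1 ≤ D) {s : ℝ}
    (hs : 0 ≤ s) (g : Finset (Fin n)) :
    601 / 1000 * hv G J θ D g s * ((∑ F ∈ tr G g, ev G θ D g F s) / D) +
        1 / 2 * res G θ D g s * (yh θ D G g s - yv G J g s) ≤
      if |xg D G g| ≤ eta θ D then 301 / 500 * hv G J θ D g s + 500 * res G θ D g s ^ 2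
      else 3 * (Real.log (1 + 2 * D) + 1) * (1 + |xg D G g|) ^ 2 := by
  have hD0 : 0 < D := by linarith
  have hh := hv_nonneg (θ := θ) (D := D) hJ g hs
  have hy := yv_mem hJ g hs
  have hyh := yh_le_one (G := G) hθ (by linarith) hD hs g
  have hyh0 := yh_pos (G := G) (θ := θ) (D := D) g s
  have hsub := (abs_le.1 (sum_ev_sub (G := G) hθ (by linarith) hD hs g)).2
  have hev : (∑ F ∈ tr G g, ev G θ D g F s) / D ≤ (1 + 2 * θ) * (1 + xg D G g) := by
    rw [div_le_iff₀ hD0]
    rw [deg_eq hD] at hsub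
    linarith
  have hev0 : 0 ≤ (∑ F ∈ tr G g, ev G θ D g F s) / D :=
    div_nonneg (sum_nonneg fun F _ => (Real.exp_pos _).le) hD0.le
  split_ifs with hg
  · have hη := eta_le (θ := θ) hθ hD
    have hev' : (∑ F ∈ tr G g, ev G θ D g F s) / D ≤ 10004 / 10000 := by
      have := (abs_le.1 hg).2
      refine hev.trans ?_
      nlinarith
    have hy2 := young (R := -res G θ D g s) (rv_pos (θ := θ) (D := D) hJ g hs)
      (by norm_num : (0 : ℝ) < 1 / 1000)
      (by rw [abs_neg]; exact (res_small hθ hθ1 hD hs hg).1)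
    have hy3 := mul_le_mul_of_nonneg_left hy2 hyh0.le
    have he : yh θ D G g s * (-res G θ D g s * (rv G J θ D g s - 1)) =
        res G θ D g s * (yh θ D G g s - yv G J g s) := by
      rw [rv]; field_simp; ring
    rw [he, mul_add, mul_left_comm, ← hv_eq hJ g hs] at hy3
    have hR : yh θ D G g s * ((-res G θ D g s) ^ 2 / (1 / 1000)) ≤
        1000 * res G θ D g s ^ 2 := by
      rw [show (-res G θ D g s) ^ 2 / (1 / 1000) = 1000 * res G θ D g s ^ 2 by ring]
      exact mul_le_of_le_one_left (by positivity) hyh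
    have h1 : hv G J θ D g s * ((∑ F ∈ tr G g, ev G θ D g F s) / D) ≤
        hv G J θ D g s * (10004 / 10000) := mul_le_mul_of_nonneg_left hev' hh
    nlinarith
  · have hx0 := abs_nonneg (xg D G g)
    have hxle := le_abs_self (xg D G g)
    set T := Real.log (1 + 2 * D) with hT
    have hT0 : 0 ≤ T := Real.log_nonneg (by linarith)
    have hh1 : hv G J θ D g s ≤ T / 2 + 1 := by
      rw [hv, lr, xs, if_neg hg, add_zero, mul_one]
      have h1 : Real.log (yv G J g s) ≤ 0 := Real.log_nonpos hy.1.le hy.2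
      have h2 := tau_le (D := D) hD0.le hs
      have h3 : yv G J g s * (Real.log (yv G J g s) + tau D s / 2) ≤ T / 2 := by
        rcases le_or_gt 0 (Real.log (yv G J g s) + tau D s / 2) with h | h
        · exact (mul_le_of_le_one_left h hy.2).trans (by linarith)
        · exact (mul_neg_of_pos_of_neg hy.1 h).le.trans (by linarith)
      linarith
    have hev2 : (∑ F ∈ tr G g, ev G θ D g F s) / D ≤ 3 / 2 * (1 + |xg D G g|) :=
      hev.trans (le_trans (mul_le_mul_of_nonneg_left (by linarith) (by linarith))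
        (mul_le_mul_of_nonneg_right (by linarith) (by linarith)))
    have hres : |res G θ D g s| ≤ 3 * (1 + |xg D G g|) := by
      rw [res, xs, if_neg hg, abs_le]
      constructor <;> linarith
    have hd : |yh θ D G g s - yv G J g s| ≤ 1 := by
      rw [abs_le]; constructor <;> linarith
    have h1 : 601 / 1000 * hv G J θ D g s * ((∑ F ∈ tr G g, ev G θ D g F s) / D) ≤
        601 / 1000 * (T / 2 + 1) * (3 / 2 * (1 + |xg D G g|)) :=
      mul_le_mul (by linarith) hev2 hev0 (by positivity)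
    have h2 : res G θ D g s * (yh θ D G g s - yv G J g s) ≤ 3 * (1 + |xg D G g|) * 1 := by
      refine (le_abs_self _).trans ?_
      rw [abs_mul]
      exact mul_le_mul hres hd (abs_nonneg _) (by positivity)
    have h3 : (T + 1) * (1 + |xg D G g|) ≤ (T + 1) * (1 + |xg D G g|) ^ 2 :=
      mul_le_mul_of_nonneg_left (le_self_pow₀ (by linarith) two_ne_zero) (by linarith)
    nlinarith [mul_nonneg hT0 hx0]

/-- A bound on the cavity unknowns. -/
lemma J_le (hJ : IsCav G J) (hθ : 0 < θ) (hθ1 : θ ≤ 1) (hD : 1 ≤ D) {t : ℝ} {a F : Finset (Fin n)}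
    (hF : F ∈ tri G) (ha : a ∈ sides F) {s : ℝ} (hs : 0 ≤ s) (hst : s ≤ t) :
    J a F s ≤ 256 * Real.exp (2 * t) * tau D s / D +
      Real.exp t * ∑ b ∈ (sides F).erase a, wv G J θ D b s := by
  have hD0 : 0 < D := by linarith
  set φ : ℝ → ℝ := fun u => 256 * Real.exp (2 * t) * tau D u / D +
      Real.exp t * ∑ b ∈ (sides F).erase a, wv G J θ D b u - J a F u with hφ
  have hder : ∀ u ∈ Set.Icc (0 : ℝ) s, HasDerivWithinAt φ
      (256 * Real.exp (2 * t) * dtau D u / D +
        Real.exp t * ∑ b ∈ (sides F).erase a, hbar G J θ D b u -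
        Real.exp (-u) * ∏ b ∈ (sides F).erase a, zOf G J b F u) (Set.Icc 0 s) u := by
    intro u hu
    have h1 : HasDerivAt (fun v => 256 * Real.exp (2 * t) * tau D v / D)
        (256 * Real.exp (2 * t) * dtau D u / D) u :=
      (((hasDeriv_tau hD0.le hu.1).const_mul _)).div_const D
    have h2 : HasDerivAt (fun v => Real.exp t * ∑ b ∈ (sides F).erase a, wv G J θ D b v)
        (Real.exp t * ∑ b ∈ (sides F).erase a, hbar G J θ D b u) u :=
      (HasDerivAt.fun_sum fun b _ => hasDeriv_wv hJ hD b u).const_mul _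
    exact (h1.hasDerivWithinAt.add h2.hasDerivWithinAt).sub
      (((hJ a F hF ha).2 u hu.1).2.mono Set.Icc_subset_Ici_self)
  have hm : MonotoneOn φ (Set.Icc 0 s) := by
    refine monotoneOn_of_hasDerivWithinAt_nonneg (convex_Icc 0 s)
      (fun u hu => (hder u hu).continuousWithinAt)
      (fun u hu => (hder u (interior_subset hu)).mono interior_subset) fun u hu => ?_
    have hu' := interior_subset hu
    have hu0 := hu'.1
    have hut : u ≤ t := le_trans hu'.2 hst
    obtain ⟨b, c, hbc, he⟩ := card_eq_two.1 (card_erase_side hF ha)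
    have hmem : ∀ x ∈ (sides F).erase a, F ∈ tr G x :=
      fun x hx => mem_tr.2 ⟨hF, (mem_erase.1 hx).2⟩
    have key : ∀ x, yv G J x u ^ 2 ≤
        512 * Real.exp (-tau D u) + 2 * hbar G J θ D x u := by
      intro x
      have hy := yv_mem hJ x hu0
      have h1 := self_le_ent (rv_pos (θ := θ) (D := D) hJ x hu0)
      have hyh0 := yh_pos (G := G) (θ := θ) (D := D) x u
      have h2 : yv G J x u ≤ 8 * yh θ D G x u + hv G J θ D x u := by
        have := mul_le_mul_of_nonneg_left h1 hyh0.le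
        rw [mul_add, ← hv_eq hJ x hu0, rv, mul_div_cancel₀ _ hyh0.ne'] at this
        linarith
      have h3 := yh_le (G := G) hθ hθ1 hD hu0 x
      have h4 : yv G J x u ≤ 16 * Real.exp (-(tau D u / 2)) + hbar G J θ D x u := by
        rw [hbar, max_eq_left hu0]
        rcases le_or_gt (hv G J θ D x u) 1 with h | h
        · rw [min_eq_left h]; linarith
        · rw [min_eq_right h.le]; linarith [Real.exp_pos (-(tau D u / 2))]
      have h5 : Real.exp (-(tau D u / 2)) ^ 2 = Real.exp (-tau D u) := by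
        rw [← Real.exp_nat_mul]; congr 1; push_cast; ring
      have hb := hbar_mem (θ := θ) (D := D) hJ x u
      rw [← h5]
      nlinarith [pow_le_pow_left₀ hy.1.le h4 2, Real.exp_pos (-(tau D u / 2)),
        sq_nonneg (16 * Real.exp (-(tau D u / 2)) - hbar G J θ D x u)]
    rw [he, prod_pair hbc, sum_pair hbc, sub_nonneg]
    have hzb := zOf_le hJ (hmem b (by simp [he])) hu0
    have hzc := zOf_le hJ (hmem c (by simp [he])) hu0
    have hyb := (yv_mem hJ b hu0).1
    have hyc := (yv_mem hJ c hu0).1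
    have hbb := (hbar_mem (θ := θ) (D := D) hJ b u).1
    have hcc := (hbar_mem (θ := θ) (D := D) hJ c u).1
    calc Real.exp (-u) * (zOf G J b F u * zOf G J c F u)
        ≤ Real.exp (-u) * ((Real.exp u * yv G J b u) * (Real.exp u * yv G J c u)) :=
          mul_le_mul_of_nonneg_left
            (mul_le_mul hzb hzc (zOf_pos hJ c F hu0).le (by positivity)) (Real.exp_pos _).le
      _ = Real.exp u * (yv G J b u * yv G J c u) := by
          rw [Real.exp_neg]; field_simp
      _ ≤ Real.exp t * (512 * Real.exp (-tau D u) + hbar G J θ D b u + hbar G J θ D c u) := by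
          refine mul_le_mul (Real.exp_le_exp.2 hut) ?_ (by positivity) (Real.exp_pos _).le
          nlinarith [sq_nonneg (yv G J b u - yv G J c u), key b, key c]
      _ = 256 * (Real.exp t * Real.exp u) * (2 * (Real.exp (-u) * Real.exp (-tau D u))) +
          Real.exp t * (hbar G J θ D b u + hbar G J θ D c u) := by
          rw [Real.exp_neg u]; field_simp; ring
      _ ≤ 256 * Real.exp (2 * t) * (2 * (Real.exp (-u) * Real.exp (-tau D u))) +
          Real.exp t * (hbar G J θ D b u + hbar G J θ D c u) := by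
          gcongr
          rw [← Real.exp_add]
          exact Real.exp_le_exp.2 (by linarith)
      _ = _ := by rw [dtau_eq hD0.le hu0]; field_simp
  have h := hm (Set.left_mem_Icc.2 hs) (Set.right_mem_Icc.2 hs) hs
  simp only [hφ, tau_zero, wv_zero, (hJ a F hF ha).1, sum_const_zero, mul_zero, zero_div,
    add_zero, sub_zero] at h
  linarith

lemma excess_sq_le (hJ : IsCav G J) (hθ : 0 < θ) (hθ1 : θ ≤ 1) (hD : 1 ≤ D) {t : ℝ}
    {F : Finset (Fin n)} (hF : F ∈ tri G) {s : ℝ} (hs : 0 ≤ s) (hst : s ≤ t) :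
    excess J F s ^ 2 ≤ 1179648 * Real.exp (10 * t) *
      (Real.log (1 + 2 * D) ^ 2 / D ^ 2 + ∑ b ∈ sides F, wv G J θ D b s) := by
  set T := Real.log (1 + 2 * D) with hT
  set S := T ^ 2 / D ^ 2 + ∑ b ∈ sides F, wv G J θ D b s with hS
  have hD0 : 0 < D := by linarith
  have ht : 0 ≤ t := hs.trans hst
  have hw : ∀ b, 0 ≤ wv G J θ D b s := fun b => (wv_mem hJ hD b hs).1
  have hS0 : 0 ≤ S := add_nonneg (by positivity) (sum_nonneg fun b _ => hw b)
  have hτ0 := tau_nonneg (D := D) hD0.le hs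
  have hτ1 : tau D s ≤ T := tau_le hD0.le hs
  have hJ2 : ∀ a ∈ sides F, J a F s ^ 2 ≤ 131072 * Real.exp (4 * t) * S := by
    intro a ha
    obtain ⟨h0, h1, -⟩ := J_bounds hJ hF ha hs
    have hle := J_le hJ hθ hθ1 hD hF ha hs hst
    have hE0 : 0 ≤ ∑ b ∈ (sides F).erase a, wv G J θ D b s := sum_nonneg fun b _ => hw b
    have hA : 0 ≤ 256 * Real.exp (2 * t) * tau D s / D :=
      div_nonneg (mul_nonneg (by positivity) hτ0) hD0.le
    have hB : 0 ≤ Real.exp t * ∑ b ∈ (sides F).erase a, wv G J θ D b s :=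
      mul_nonneg (Real.exp_pos t).le hE0
    refine (sq_le_of_le_add (x := J a F s) (a := 256 * Real.exp (2 * t) * tau D s / D)
      (b := Real.exp t * ∑ b ∈ (sides F).erase a, wv G J θ D b s)
      (by rw [abs_of_nonneg h0]; exact h1)
      (by rw [abs_of_nonneg h0, abs_of_nonneg hA, abs_of_nonneg hB]; exact hle)).trans ?_
    rw [abs_of_nonneg hB, hS, mul_add]
    refine add_le_add ?_ ?_
    · have h4 : Real.exp (2 * t) ^ 2 = Real.exp (4 * t) := by
        rw [← Real.exp_nat_mul]; congr 1; push_cast; ring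
      rw [div_pow, mul_pow, mul_pow, h4]
      calc 2 * (256 ^ 2 * Real.exp (4 * t) * tau D s ^ 2 / D ^ 2)
          ≤ 2 * (256 ^ 2 * Real.exp (4 * t) * T ^ 2 / D ^ 2) := by gcongr
        _ = _ := by ring
    · have h1 : Real.exp t ≤ Real.exp (4 * t) := Real.exp_le_exp.2 (by linarith)
      have h2 : ∑ b ∈ (sides F).erase a, wv G J θ D b s ≤ ∑ b ∈ sides F, wv G J θ D b s :=
        sum_le_sum_of_subset_of_nonneg (erase_subset _ _) fun b _ _ => hw b
      have h3 : 2 * Real.exp t ≤ 131072 * Real.exp (4 * t) := by linarith [Real.exp_pos t]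
      calc 2 * (Real.exp t * ∑ b ∈ (sides F).erase a, wv G J θ D b s)
          = 2 * Real.exp t * ∑ b ∈ (sides F).erase a, wv G J θ D b s := by ring
        _ ≤ _ := mul_le_mul h3 h2 hE0 (by positivity)
  obtain ⟨he0, he⟩ := excess_bounds hJ hF hs
  have h1 : (∑ a ∈ sides F, J a F s) ^ 2 ≤ 9 * (131072 * Real.exp (4 * t) * S) := by
    refine (sq_sum_le_card_mul_sum_sq).trans ?_
    rw [card_sides (mem_tri.1 hF).1]
    have := sum_le_card_nsmul _ _ _ hJ2
    rw [card_sides (mem_tri.1 hF).1, nsmul_eq_mul] at this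
    push_cast at this ⊢
    linarith
  calc excess J F s ^ 2 ≤ (Real.exp (3 * s) * ∑ a ∈ sides F, J a F s) ^ 2 :=
        pow_le_pow_left₀ he0 he 2
    _ = Real.exp (6 * s) * (∑ a ∈ sides F, J a F s) ^ 2 := by
        rw [mul_pow, ← Real.exp_nat_mul]; congr 2; push_cast; ring
    _ ≤ Real.exp (6 * t) * (9 * (131072 * Real.exp (4 * t) * S)) :=
        mul_le_mul (Real.exp_le_exp.2 (by linarith)) h1 (sq_nonneg _) (Real.exp_pos _).le
    _ = _ := by
        rw [show (10 : ℝ) * t = 6 * t + 4 * t by ring, Real.exp_add]; ring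

end Vale.Agent.P046.Full.Four
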