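import Vale.Agent.P046.Full.Base

/-!
P046, the cavity system: sums over incidences, the marginals and their derivatives, and the
comparison time scale.
-/

namespace Vale.Agent.P046.Full.Four

open Finset
open Vale.Agent.P046

variable {n : ℕ}

/-- The triangles through an edge. -/
def tr (G : Gr n) (g : Finset (Fin n)) : Finset (Finset (Fin n)) :=
  (tri G).filter (fun F => g ∈ sides F)

lemma mem_tr {G : Gr n} {g F : Finset (Fin n)} : F ∈ tr G g ↔ F ∈ tri G ∧ g ∈ sides F :=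
  mem_filter

lemma card_tr (G : Gr n) (g : Finset (Fin n)) : (tr G g).card = deg G g := rfl

lemma sides_triple {G : Gr n} {F : Finset (Fin n)} (hF : F ∈ tri G) :
    ∃ a b c, a ≠ b ∧ a ≠ c ∧ b ≠ c ∧ sides F = {a, b, c} :=
  card_eq_three.1 (card_sides (mem_tri.1 hF).1)

lemma card_erase_side {G : Gr n} {F g : Finset (Fin n)} (hF : F ∈ tri G) (hg : g ∈ sides F) :
    ((sides F).erase g).card = 2 := by
  rw [card_erase_of_mem hg, card_sides (mem_tri.1 hF).1]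

/-- Exchanging the order of summation over incidences. -/
lemma sum_tr_swap {β : Type*} [AddCommMonoid β] (G : Gr n)
    (f : Finset (Fin n) → Finset (Fin n) → β) :
    ∑ g ∈ G, ∑ F ∈ tr G g, f g F = ∑ F ∈ tri G, ∑ g ∈ sides F, f g F := by
  simp only [tr, sum_filter]
  rw [sum_comm]
  refine sum_congr rfl fun F hF => ?_
  rw [← sum_filter]
  congr 1
  ext g
  simp only [mem_filter]
  exact ⟨fun h => h.2, fun h => ⟨(mem_tri.1 hF).2 h, h⟩⟩

lemma sum_nbrs (G : Gr n) (g : Finset (Fin n)) (φ : Finset (Fin n) → ℝ) :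
    ∑ f ∈ nbrs G g, φ f = ∑ F ∈ tr G g, ∑ b ∈ (sides F).erase g, φ b := by
  have h : nbrs G g = (tr G g).biUnion (fun F => (sides F).erase g) := by
    ext f
    simp only [nbrs, mem_filter, mem_biUnion, mem_erase, mem_tr]
    constructor
    · rintro ⟨-, hne, E, hE, hgE, hfE⟩
      exact ⟨E, ⟨hE, hgE⟩, hne, hfE⟩
    · rintro ⟨E, ⟨hE, hgE⟩, hne, hfE⟩
      exact ⟨(mem_tri.1 hE).2 hfE, hne, E, hE, hgE, hfE⟩
  rw [h, sum_biUnion]
  intro E hE F hF hne
  simp only [Function.onFun, disjoint_left]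
  intro f h1 h2
  simp only [mem_coe, mem_tr] at hE hF
  rw [mem_erase] at h1 h2
  exact h1.1 (shared_unique (mem_tri.1 hE.1).1 (mem_tri.1 hF.1).1 hne h1.2 h2.2 hE.2 hF.2)

lemma card_nbrs (G : Gr n) (g : Finset (Fin n)) : ((nbrs G g).card : ℝ) = 2 * (deg G g : ℝ) := by
  have h := sum_nbrs G g (fun _ => (1 : ℝ))
  rw [sum_const, nsmul_eq_mul, mul_one] at h
  rw [h, ← card_tr]
  calc ∑ F ∈ tr G g, ∑ b ∈ (sides F).erase g, (1 : ℝ) = ∑ F ∈ tr G g, (2 : ℝ) := by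
        refine sum_congr rfl fun F hF => ?_
        rw [sum_const, card_erase_side (mem_tr.1 hF).1 (mem_tr.1 hF).2]
        norm_num
    _ = _ := by rw [sum_const, nsmul_eq_mul]; ring

lemma sum_sum_nbrs (G : Gr n) (φ : Finset (Fin n) → ℝ) :
    ∑ g ∈ G, ∑ f ∈ nbrs G g, φ f = 2 * ∑ f ∈ G, (deg G f : ℝ) * φ f := by
  rw [sum_congr rfl fun g _ => sum_nbrs G g φ, sum_tr_swap G (fun g F => ∑ b ∈ (sides F).erase g, φ b)]
  have h : ∀ F ∈ tri G, ∑ g ∈ sides F, ∑ b ∈ (sides F).erase g, φ b = 2 * ∑ g ∈ sides F, φ g := by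
    intro F hF
    obtain ⟨a, b, c, hab, hac, hbc, he⟩ := sides_triple hF
    rw [sum_congr rfl fun g hg => sum_erase_eq_sub hg, sum_sub_distrib, sum_const,
      card_sides (mem_tri.1 hF).1, nsmul_eq_mul]
    push_cast; ring
  rw [sum_congr rfl h, ← mul_sum, sum_tri_sides]
  simp only [nsmul_eq_mul]

lemma sum_tri_sides_le (G : Gr n) : ((tri G).card : ℝ) ≤ ∑ g ∈ G, (deg G g : ℝ) := by
  have h : (tri G).card ≤ ∑ g ∈ G, deg G g := by rw [sum_deg]; omega
  exact_mod_cast h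

/-! ### The marginals -/

/-- The chance that `g` is present at time `s`. -/
noncomputable def yv (G : Gr n) (J : Finset (Fin n) → Finset (Fin n) → ℝ → ℝ)
    (g : Finset (Fin n)) (s : ℝ) : ℝ := ∏ E ∈ tr G g, (1 - J g E s)

lemma cavTot_eq (G : Gr n) (J : Finset (Fin n) → Finset (Fin n) → ℝ → ℝ) (s : ℝ) :
    cavTot G J s = ∑ g ∈ G, yv G J g s := rfl

variable {G : Gr n} {J : Finset (Fin n) → Finset (Fin n) → ℝ → ℝ}

lemma J_bounds (hJ : IsCav G J) {a F : Finset (Fin n)} (hF : F ∈ tri G) (ha : a ∈ sides F)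
    {s : ℝ} (hs : 0 ≤ s) :
    0 ≤ J a F s ∧ J a F s ≤ 1 ∧ Real.exp (-s) ≤ 1 - J a F s := by
  obtain ⟨h1, h2⟩ := ((hJ a F hF ha).2 s hs).1
  have := Real.exp_pos (-s)
  exact ⟨h1, by linarith, by linarith⟩

lemma yv_mem (hJ : IsCav G J) (g : Finset (Fin n)) {s : ℝ} (hs : 0 ≤ s) :
    0 < yv G J g s ∧ yv G J g s ≤ 1 := by
  constructor
  · refine prod_pos fun E hE => ?_
    obtain ⟨-, -, h⟩ := J_bounds hJ (mem_tr.1 hE).1 (mem_tr.1 hE).2 hs
    exact lt_of_lt_of_le (Real.exp_pos _) h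
  · refine Finset.prod_le_one (fun E hE => ?_) (fun E hE => ?_) <;>
      obtain ⟨h1, h2, -⟩ := J_bounds hJ (mem_tr.1 hE).1 (mem_tr.1 hE).2 hs <;> linarith

lemma yv_zero (hJ : IsCav G J) (g : Finset (Fin n)) : yv G J g 0 = 1 := by
  refine prod_eq_one fun E hE => ?_
  rw [(hJ g E (mem_tr.1 hE).1 (mem_tr.1 hE).2).1, sub_zero]

lemma yv_eq_zOf_mul {g F : Finset (Fin n)} (hF : F ∈ tr G g) (s : ℝ) :
    yv G J g s = zOf G J g F s * (1 - J g F s) := by
  have h : (tri G).filter (fun E => g ∈ sides E ∧ E ≠ F) = (tr G g).erase F := by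
    ext E
    simp only [tr, mem_filter, mem_erase]
    tauto
  rw [yv, zOf, h, prod_erase_mul _ _ hF]

lemma zOf_pos (hJ : IsCav G J) (g F : Finset (Fin n)) {s : ℝ} (hs : 0 ≤ s) :
    0 < zOf G J g F s := by
  refine prod_pos fun E hE => ?_
  rw [mem_filter] at hE
  obtain ⟨-, -, h⟩ := J_bounds hJ hE.1 hE.2.1 hs
  exact lt_of_lt_of_le (Real.exp_pos _) h

lemma zOf_le (hJ : IsCav G J) {g F : Finset (Fin n)} (hF : F ∈ tr G g) {s : ℝ} (hs : 0 ≤ s) :
    zOf G J g F s ≤ Real.exp s * yv G J g s := by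
  obtain ⟨-, -, h⟩ := J_bounds hJ (mem_tr.1 hF).1 (mem_tr.1 hF).2 hs
  have hz := (zOf_pos hJ g F hs).le
  rw [yv_eq_zOf_mul hF]
  calc zOf G J g F s = Real.exp s * (zOf G J g F s * Real.exp (-s)) := by
        rw [Real.exp_neg]; field_simp
    _ ≤ _ := by gcongr

/-- The rate at which `F` fires. -/
noncomputable def fire (G : Gr n) (J : Finset (Fin n) → Finset (Fin n) → ℝ → ℝ)
    (F : Finset (Fin n)) (s : ℝ) : ℝ := Real.exp (-s) * ∏ a ∈ sides F, zOf G J a F s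

lemma hasDeriv_yv (hJ : IsCav G J) (g : Finset (Fin n)) {s : ℝ} (hs : 0 ≤ s) :
    HasDerivWithinAt (yv G J g) (-∑ F ∈ tr G g, fire G J F s) (Set.Ici 0) s := by
  have h := HasDerivWithinAt.fun_finsetProd (u := tr G g) (f := fun E v => 1 - J g E v)
    (f' := fun E => -(Real.exp (-s) * ∏ b ∈ (sides E).erase g, zOf G J b E s))
    (s := Set.Ici 0) (x := s)
    (fun E hE => (((hJ g E (mem_tr.1 hE).1 (mem_tr.1 hE).2).2 s hs).2.const_sub 1))
  refine h.congr_deriv ?_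
  rw [← sum_neg_distrib]
  refine sum_congr rfl fun F hF => ?_
  have he : (tri G).filter (fun E => g ∈ sides E ∧ E ≠ F) = (tr G g).erase F := by
    ext E
    simp only [tr, mem_filter, mem_erase]
    tauto
  rw [fire, ← mul_prod_erase _ _ (mem_tr.1 hF).2, smul_eq_mul, zOf, he]
  ring

/-- The amount by which the rate of `F` exceeds the product of the marginals. -/
noncomputable def excess (J : Finset (Fin n) → Finset (Fin n) → ℝ → ℝ) (F : Finset (Fin n))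
    (s : ℝ) : ℝ := (∏ a ∈ sides F, (1 - J a F s))⁻¹ - 1

lemma fire_eq (hJ : IsCav G J) {F : Finset (Fin n)} (hF : F ∈ tri G) {s : ℝ} (hs : 0 ≤ s) :
    fire G J F s = Real.exp (-s) * (1 + excess J F s) * ∏ a ∈ sides F, yv G J a s := by
  have hp : 0 < ∏ a ∈ sides F, (1 - J a F s) := prod_pos fun a ha =>
    lt_of_lt_of_le (Real.exp_pos _) (J_bounds hJ hF ha hs).2.2
  rw [prod_congr rfl fun a ha => yv_eq_zOf_mul (mem_tr.2 ⟨hF, ha⟩) s, prod_mul_distrib,
    excess, fire]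
  field_simp
  ring

lemma excess_bounds (hJ : IsCav G J) {F : Finset (Fin n)} (hF : F ∈ tri G) {s : ℝ}
    (hs : 0 ≤ s) :
    0 ≤ excess J F s ∧ excess J F s ≤ Real.exp (3 * s) * ∑ a ∈ sides F, J a F s := by
  obtain ⟨a, b, c, hab, hac, hbc, he⟩ := sides_triple hF
  have key : ∀ x ∈ sides F, 0 ≤ J x F s ∧ J x F s ≤ 1 ∧ Real.exp (-s) ≤ 1 - J x F s :=
    fun x hx => J_bounds hJ hF hx hs
  obtain ⟨a0, a1, a2⟩ := key a (by simp [he])
  obtain ⟨b0, b1, b2⟩ := key b (by simp [he])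
  obtain ⟨c0, c1, c2⟩ := key c (by simp [he])
  have hE := Real.exp_pos (-s)
  rw [excess, he, prod_insert (by simp [hab, hac]), prod_pair hbc, sum_insert (by simp [hab, hac]),
    sum_pair hbc]
  have hlow : Real.exp (-s) * (Real.exp (-s) * Real.exp (-s)) ≤
      (1 - J a F s) * ((1 - J b F s) * (1 - J c F s)) :=
    mul_le_mul a2 (mul_le_mul b2 c2 hE.le (by linarith)) (by positivity) (by linarith)
  set Q := (1 - J a F s) * ((1 - J b F s) * (1 - J c F s)) with hQ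
  have hQ0 : 0 < Q := lt_of_lt_of_le (by positivity) hlow
  have hQ1 : Q ≤ 1 := by
    rw [hQ]
    exact mul_le_one₀ (by linarith) (mul_nonneg (by linarith) (by linarith))
      (mul_le_one₀ (by linarith) (by linarith) (by linarith))
  have hinv : Q⁻¹ ≤ Real.exp (3 * s) := by
    rw [inv_le_comm₀ hQ0 (Real.exp_pos _), ← Real.exp_neg]
    refine le_trans (le_of_eq ?_) hlow
    rw [← Real.exp_add, ← Real.exp_add]; congr 1; ring
  have hsum : 1 - Q ≤ J a F s + (J b F s + J c F s) := by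
    rw [hQ]; nlinarith [mul_nonneg a0 b0, mul_nonneg b0 c0, mul_nonneg a0 c0,
      mul_nonneg (mul_nonneg a0 b0) c0, mul_nonneg (mul_nonneg a0 b0) (sub_nonneg.2 c1)]
  have heq : Q⁻¹ - 1 = Q⁻¹ * (1 - Q) := by field_simp
  rw [heq]
  refine ⟨mul_nonneg (by positivity) (by linarith), ?_⟩
  exact mul_le_mul hinv hsum (by linarith) (Real.exp_pos _).le

/-! ### The time scale -/

/-- `1 / y0 ^ 2` for the marginal `y0` of the regular system of degree `D`. -/
noncomputable def Pt (D s : ℝ) : ℝ := 1 + 2 * D * (1 - Real.exp (-s))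

noncomputable def tau (D s : ℝ) : ℝ := Real.log (Pt D s)

noncomputable def dtau (D s : ℝ) : ℝ := 2 * D * Real.exp (-s) / Pt D s

lemma one_le_Pt {D s : ℝ} (hD : 0 ≤ D) (hs : 0 ≤ s) : 1 ≤ Pt D s := by
  have : Real.exp (-s) ≤ 1 := Real.exp_le_one_iff.2 (by linarith)
  have := mul_nonneg (mul_nonneg (by norm_num : (0 : ℝ) ≤ 2) hD) (sub_nonneg.2 this)
  unfold Pt; linarith

lemma Pt_le {D s : ℝ} (hD : 0 ≤ D) : Pt D s ≤ 1 + 2 * D := by
  have := mul_nonneg (mul_nonneg (by norm_num : (0 : ℝ) ≤ 2) hD) (Real.exp_pos (-s)).le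
  unfold Pt; linarith

lemma Pt_mono {D u s : ℝ} (hD : 0 ≤ D) (hus : u ≤ s) : Pt D u ≤ Pt D s := by
  have h : Real.exp (-s) ≤ Real.exp (-u) := Real.exp_le_exp.2 (by linarith)
  have := mul_le_mul_of_nonneg_left h (mul_nonneg (by norm_num : (0 : ℝ) ≤ 2) hD)
  unfold Pt; linarith

lemma tau_zero (D : ℝ) : tau D 0 = 0 := by simp [tau, Pt]

lemma tau_nonneg {D s : ℝ} (hD : 0 ≤ D) (hs : 0 ≤ s) : 0 ≤ tau D s :=
  Real.log_nonneg (one_le_Pt hD hs)

lemma tau_le {D s : ℝ} (hD : 0 ≤ D) (hs : 0 ≤ s) : tau D s ≤ Real.log (1 + 2 * D) :=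
  Real.log_le_log (by linarith [one_le_Pt hD hs]) (Pt_le hD)

lemma tau_mono {D u s : ℝ} (hD : 0 ≤ D) (hu : 0 ≤ u) (hus : u ≤ s) : tau D u ≤ tau D s :=
  Real.log_le_log (by linarith [one_le_Pt hD hu]) (Pt_mono hD hus)

lemma exp_neg_tau {D s : ℝ} (hD : 0 ≤ D) (hs : 0 ≤ s) :
    Real.exp (-tau D s) = (Pt D s)⁻¹ := by
  rw [Real.exp_neg, tau, Real.exp_log (by linarith [one_le_Pt hD hs])]

lemma dtau_nonneg {D s : ℝ} (hD : 0 ≤ D) (hs : 0 ≤ s) : 0 ≤ dtau D s :=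
  div_nonneg (by positivity) (by linarith [one_le_Pt hD hs])

lemma dtau_pos {D s : ℝ} (hD : 0 < D) (hs : 0 ≤ s) : 0 < dtau D s :=
  div_pos (by positivity) (by linarith [one_le_Pt hD.le hs])

lemma dtau_eq {D s : ℝ} (hD : 0 ≤ D) (hs : 0 ≤ s) :
    dtau D s = 2 * D * (Real.exp (-s) * Real.exp (-tau D s)) := by
  rw [exp_neg_tau hD hs, dtau]; ring

lemma hasDeriv_tau {D s : ℝ} (hD : 0 ≤ D) (hs : 0 ≤ s) :
    HasDerivAt (tau D) (dtau D s) s := by
  have h1 : HasDerivAt (fun v : ℝ => Pt D v) (2 * D * Real.exp (-s)) s := by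
    have := ((((hasDerivAt_id s).neg.exp).const_sub 1).const_mul (2 * D)).const_add 1
    simpa [Pt] using this
  exact h1.log (by linarith [one_le_Pt hD hs])

end Vale.Agent.P046.Full.Four
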