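import Vale.Agent.P046.Full.Base

/-!
P046, scalar inequalities for the cavity comparison.
-/

namespace Vale.Agent.P046.Full.Four

open Vale.Agent.P046

/-- The entropy of a ratio. -/
noncomputable def ent (r : ℝ) : ℝ := r * Real.log r - r + 1

/-- Young's inequality for the entropy. -/
lemma mul_sub_one_le_ent {r u : ℝ} (hr : 0 < r) :
    u * (r - 1) ≤ ent r + (Real.exp u - 1 - u) := by
  have h1 : r * (1 + (u - Real.log r)) ≤ r * Real.exp (u - Real.log r) :=
    mul_le_mul_of_nonneg_left (by linarith [Real.add_one_le_exp (u - Real.log r)]) hr.le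
  have h2 : r * Real.exp (u - Real.log r) = Real.exp u := by
    rw [Real.exp_sub, Real.exp_log hr]; field_simp
  unfold ent
  nlinarith

lemma ent_nonneg {r : ℝ} (hr : 0 < r) : 0 ≤ ent r := by
  have h := mul_sub_one_le_ent (u := 0) hr
  simpa using h

lemma young {r R e : ℝ} (hr : 0 < r) (he : 0 < e) (hR : |R| ≤ e) :
    R * (r - 1) ≤ e * ent r + R ^ 2 / e := by
  have hu : |R / e| ≤ 1 := by rwa [abs_div, abs_of_pos he, div_le_one he]
  have h1 := mul_sub_one_le_ent (u := R / e) hr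
  have h2 := Real.abs_exp_sub_one_sub_id_le hu
  have h3 : R / e * (r - 1) ≤ ent r + (R / e) ^ 2 := by linarith [(abs_le.1 h2).2]
  have h4 := mul_le_mul_of_nonneg_left h3 he.le
  calc R * (r - 1) = e * (R / e * (r - 1)) := by field_simp
    _ ≤ e * (ent r + (R / e) ^ 2) := h4
    _ = e * ent r + R ^ 2 / e := by field_simp

lemma abs_sub_one_le {r e : ℝ} (hr : 0 < r) (he : 0 < e) (he1 : e ≤ 1) :
    |r - 1| ≤ ent r / e + e := by
  have key : ∀ u : ℝ, |u| = e → u * (r - 1) ≤ ent r + e ^ 2 := by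
    intro u hu
    have h1 := mul_sub_one_le_ent (u := u) hr
    have h2 := Real.abs_exp_sub_one_sub_id_le (x := u) (by linarith)
    have h3 : u ^ 2 = e ^ 2 := by rw [← sq_abs, hu]
    linarith [(abs_le.1 h2).2]
  have hp := key e (abs_of_pos he)
  have hm := key (-e) (by rw [abs_neg, abs_of_pos he])
  have h : e * |r - 1| ≤ ent r + e ^ 2 := by
    rcases abs_cases (r - 1) with ⟨h, -⟩ | ⟨h, -⟩ <;> rw [h] <;> linarith
  have h4 : e * (ent r / e + e) = ent r + e ^ 2 := by field_simp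
  nlinarith

lemma sq_le_ent {r : ℝ} (hr : 0 < r) : max (1 - r) 0 ^ 2 ≤ 2 * ent r := by
  rcases le_or_gt r 1 with h | h
  · rw [max_eq_left (by linarith)]
    have hu : 0 ≤ -Real.log r := by
      have := Real.log_nonpos hr.le h; linarith
    have h1 := Real.self_le_sinh_iff.2 hu
    rw [Real.sinh_eq, neg_neg, Real.exp_neg, Real.exp_log hr] at h1
    have h2 := mul_le_mul_of_nonneg_left h1 hr.le
    have h3 : r * ((r⁻¹ - r) / 2) = (1 - r ^ 2) / 2 := by field_simp
    rw [h3] at h2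
    unfold ent
    nlinarith
  · rw [max_eq_right (by linarith)]
    simpa using mul_nonneg (by norm_num : (0 : ℝ) ≤ 2) (ent_nonneg hr)

lemma one_sub_mul_le {p q : ℝ} (hp : 0 < p) (hq : 0 < q) :
    max (1 - p * q) 0 ≤ max (1 - p) 0 + max (1 - q) 0 := by
  have h1 := le_max_left (1 - p) 0
  have h2 := le_max_right (1 - p) 0
  have h3 := le_max_left (1 - q) 0
  have h4 := le_max_right (1 - q) 0
  refine max_le ?_ (by linarith)
  rcases le_or_gt 1 p with h | h
  · nlinarith
  · rcases le_or_gt 1 q with h' | h'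
    · nlinarith
    · nlinarith

/-- The bound on one triangle. -/
lemma triangle_bound (hcert : CertFourStmt) {p q r j : ℝ} (hp : 0 < p) (hq : 0 < q) (hr : 0 < r)
    (hj : 0 ≤ j) :
    -((1 + j) * (p * q * r * (Real.log p + Real.log q + Real.log r))) +
        ((p - 1) + (q - 1) + (r - 1)) ≤
      601 / 500 * (ent p + ent q + ent r) + 750 * j ^ 2 := by
  have hP : 0 < p * q * r := by positivity
  have hlog : Real.log (p * q * r) = Real.log p + Real.log q + Real.log r := by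
    rw [Real.log_mul (by positivity) hr.ne', Real.log_mul hp.ne' hq.ne']
  have hc : -(p * q * r * Real.log (p * q * r)) + (p - 1) + (q - 1) + (r - 1) ≤
      6 / 5 * (ent p + ent q + ent r) := hcert p q r hp hq hr
  have hw1 : -(p * q * r * Real.log (p * q * r)) ≤ max (1 - p * q * r) 0 := by
    have h := Real.one_sub_inv_le_log_of_pos hP
    have h' := mul_le_mul_of_nonneg_left h hP.le
    rw [mul_sub, mul_one, mul_inv_cancel₀ hP.ne'] at h'
    exact le_trans (by linarith) (le_max_left _ _)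
  have hw2 := one_sub_mul_le (mul_pos hp hq) hr
  have hw3 := one_sub_mul_le hp hq
  rw [← hlog]
  have e1 := sq_le_ent hp
  have e2 := sq_le_ent hq
  have e3 := sq_le_ent hr
  have hjw : j * -(p * q * r * Real.log (p * q * r)) ≤
      j * (max (1 - p) 0 + max (1 - q) 0 + max (1 - r) 0) :=
    mul_le_mul_of_nonneg_left (by linarith) hj
  nlinarith [sq_nonneg (max (1 - p) 0 - 500 * j), sq_nonneg (max (1 - q) 0 - 500 * j),
    sq_nonneg (max (1 - r) 0 - 500 * j)]

lemma sq_le_of_le_add {x a b : ℝ} (hx : |x| ≤ 1) (h : |x| ≤ |a| + |b|) :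
    x ^ 2 ≤ 2 * a ^ 2 + 2 * |b| := by
  rw [← sq_abs x, ← sq_abs a]
  have hx0 := abs_nonneg x
  rcases le_or_gt 1 |b| with hb | hb
  · nlinarith [sq_nonneg |a|]
  · nlinarith [abs_nonneg b, abs_nonneg a, sq_nonneg (|a| - |b|)]

/-- A ratio above `8` is paid for by its entropy. -/
lemma self_le_ent {r : ℝ} (hr : 0 < r) : r ≤ 8 + ent r := by
  rcases le_or_gt r 8 with h | h
  · linarith [ent_nonneg hr]
  · have h1 : Real.log 8 ≤ Real.log r := Real.log_le_log (by norm_num) h.le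
    have h2 : Real.log 8 = 3 * Real.log 2 := by
      rw [show (8 : ℝ) = 2 ^ 3 by norm_num, Real.log_pow]; norm_num
    have h3 := Real.log_two_gt_d9
    unfold ent
    nlinarith

lemma abs_exp_sub_one_le_two {u : ℝ} (hu : |u| ≤ 1) : |Real.exp u - 1| ≤ 2 * |u| :=
  Real.abs_exp_sub_one_le hu

lemma psiU_den_pos (x : ℝ) : 0 < 1 + x + 4 * x ^ 2 := by nlinarith [sq_nonneg (x + 1 / 8)]

lemma psiU_nonneg (x : ℝ) : 0 ≤ psiU x := div_nonneg (by positivity) (psiU_den_pos x).le

lemma pow_four_le_psiU {x : ℝ} (hx : |x| ≤ 1) : x ^ 4 ≤ 6 * psiU x := by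
  unfold psiU
  rw [← mul_div_assoc, le_div_iff₀ (psiU_den_pos x)]
  have hxl := abs_le.1 hx
  have h : 1 + x + 4 * x ^ 2 ≤ 6 := by nlinarith
  nlinarith [show 0 ≤ x ^ 4 by positivity]

lemma sq_le_psiU {x η : ℝ} (hη : 0 < η) (hη1 : η ≤ 1) (hx : η < |x|) :
    (1 + |x|) ^ 2 ≤ 24 / η ^ 4 * psiU x := by
  have hη4 : 0 < η ^ 4 := by positivity
  have hη4' : η ^ 4 ≤ 1 := pow_le_one₀ hη.le hη1
  have h24 : 24 ≤ 24 / η ^ 4 := by rw [le_div_iff₀ hη4]; linarith
  rcases le_or_gt |x| 1 with h | h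
  · have h4 := pow_four_le_psiU h
    have h1 : η ^ 4 ≤ |x| ^ 4 := pow_le_pow_left₀ hη.le hx.le 4
    rw [show |x| ^ 4 = x ^ 4 by rw [pow_abs, abs_of_nonneg (by positivity)]] at h1
    rw [div_mul_eq_mul_div, le_div_iff₀ hη4]
    nlinarith [abs_nonneg x, mul_le_mul (show (1 + |x|) ^ 2 ≤ 4 by nlinarith [abs_nonneg x]) h1
      hη4.le (by norm_num : (0 : ℝ) ≤ 4)]
  · have hsq : x ^ 2 = |x| ^ 2 := (sq_abs x).symm
    have hp : x ^ 2 ≤ 6 * psiU x := by
      unfold psiU
      rw [← mul_div_assoc, le_div_iff₀ (psiU_den_pos x)]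
      have hd : 1 + x + 4 * x ^ 2 ≤ 6 * x ^ 2 := by nlinarith [le_abs_self x]
      nlinarith [sq_nonneg x]
    have := mul_le_mul_of_nonneg_right h24 (psiU_nonneg x)
    nlinarith

end Vale.Agent.P046.Full.Four
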