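import Vale.Agent.P046.Full.Four.Cav
import Vale.Agent.P046.Full.Four.Ineq

/-!
P046, the cavity marginals of one graph against those of the regular system: the entropy of the
marginals against a tilted comparator grows at most like `exp (0.6075 * tau)` times the potentials.
-/

namespace Vale.Agent.P046.Full.Four

open Finset
open Vale.Agent.P046

variable {n : ℕ}

/-- The threshold below which the codegree error enters the comparator. -/
noncomputable def eta (θ D : ℝ) : ℝ := θ / (1 + Real.log (1 + 2 * D))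

/-- The truncated codegree error. -/
noncomputable def xs (θ D : ℝ) (G : Gr n) (g : Finset (Fin n)) : ℝ :=
  if |xg D G g| ≤ eta θ D then xg D G g else 0

/-- The edges with a small codegree error. -/
noncomputable def small (θ D : ℝ) (G : Gr n) : Gr n :=
  G.filter (fun g => |xg D G g| ≤ eta θ D)

/-- The weight of the edges with a large codegree error. -/
noncomputable def bigSum (θ D : ℝ) (G : Gr n) : ℝ :=
  ∑ g ∈ G.filter (fun g => ¬|xg D G g| ≤ eta θ D), (1 + |xg D G g|) ^ 2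

/-- The comparator. -/
noncomputable def yh (θ D : ℝ) (G : Gr n) (g : Finset (Fin n)) (s : ℝ) : ℝ :=
  Real.exp (-(tau D s * (1 + xs θ D G g) / 2))

variable (G : Gr n) (J : Finset (Fin n) → Finset (Fin n) → ℝ → ℝ) (θ D : ℝ)

/-- The logarithm of marginal over comparator. -/
noncomputable def lr (g : Finset (Fin n)) (s : ℝ) : ℝ :=
  Real.log (yv G J g s) + tau D s * (1 + xs θ D G g) / 2

/-- The entropy of one marginal against its comparator. -/
noncomputable def hv (g : Finset (Fin n)) (s : ℝ) : ℝ :=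
  yv G J g s * lr G J θ D g s - yv G J g s + yh θ D G g s

/-- Marginal over comparator. -/
noncomputable def rv (g : Finset (Fin n)) (s : ℝ) : ℝ := yv G J g s / yh θ D G g s

/-- The product of the tilts of the other two edges of `F`. -/
noncomputable def ev (g F : Finset (Fin n)) (s : ℝ) : ℝ :=
  Real.exp (-(tau D s / 2 * ∑ b ∈ (sides F).erase g, xs θ D G b))

/-- The residual of the comparator. -/
noncomputable def res (g : Finset (Fin n)) (s : ℝ) : ℝ :=
  (∑ F ∈ tr G g, ev G θ D g F s) / D - (1 + xs θ D G g)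

/-- The product of the comparators of a triangle. -/
noncomputable def ph (F : Finset (Fin n)) (s : ℝ) : ℝ :=
  Real.exp (-s) * ∏ a ∈ sides F, yh θ D G a s

/-- The clipped entropy, continued to negative times. -/
noncomputable def hbar (g : Finset (Fin n)) (u : ℝ) : ℝ := min (hv G J θ D g (max u 0)) 1

/-- The accumulated clipped entropy. -/
noncomputable def wv (g : Finset (Fin n)) (s : ℝ) : ℝ := ∫ u in (0 : ℝ)..s, hbar G J θ D g u

variable {G J θ D}

lemma eta_pos (hθ : 0 < θ) (hD : 1 ≤ D) : 0 < eta θ D :=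
  div_pos hθ (by linarith [Real.log_nonneg (show (1 : ℝ) ≤ 1 + 2 * D by linarith)])

lemma eta_le (hθ : 0 < θ) (hD : 1 ≤ D) : eta θ D ≤ θ :=
  div_le_self hθ.le (by linarith [Real.log_nonneg (show (1 : ℝ) ≤ 1 + 2 * D by linarith)])

lemma tau_mul_eta (hθ : 0 < θ) (hD : 1 ≤ D) {s : ℝ} (hs : 0 ≤ s) :
    tau D s * eta θ D ≤ θ := by
  have h1 : tau D s ≤ 1 + Real.log (1 + 2 * D) := by linarith [tau_le (by linarith : 0 ≤ D) hs]
  have hpos : 0 < 1 + Real.log (1 + 2 * D) := by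
    linarith [Real.log_nonneg (show (1 : ℝ) ≤ 1 + 2 * D by linarith)]
  calc tau D s * eta θ D ≤ (1 + Real.log (1 + 2 * D)) * eta θ D :=
        mul_le_mul_of_nonneg_right h1 (eta_pos hθ hD).le
    _ = θ := by rw [eta]; field_simp

lemma abs_xs (hθ : 0 < θ) (hD : 1 ≤ D) (g : Finset (Fin n)) :
    |xs θ D G g| ≤ eta θ D := by
  unfold xs
  split_ifs with h
  · exact h
  · simpa using (eta_pos hθ hD).le

lemma tau_mul_xs (hθ : 0 < θ) (hD : 1 ≤ D) {s : ℝ} (hs : 0 ≤ s) (g : Finset (Fin n)) :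
    |tau D s * xs θ D G g| ≤ θ := by
  rw [abs_mul, abs_of_nonneg (tau_nonneg (by linarith) hs)]
  exact le_trans (mul_le_mul_of_nonneg_left (abs_xs hθ hD g) (tau_nonneg (by linarith) hs))
    (tau_mul_eta hθ hD hs)

lemma deg_eq (hD : 1 ≤ D) (g : Finset (Fin n)) : (deg G g : ℝ) = D * (1 + xg D G g) := by
  have : D ≠ 0 := by linarith
  rw [xg]; field_simp; ring

lemma deg_le_of_small (hθ : 0 < θ) (hθ1 : θ ≤ 1) (hD : 1 ≤ D) {g : Finset (Fin n)}
    (hg : |xg D G g| ≤ eta θ D) : (deg G g : ℝ) ≤ 2 * D := by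
  rw [deg_eq hD]
  nlinarith [(abs_le.1 hg).2, eta_le hθ hD]

lemma yh_pos (g : Finset (Fin n)) (s : ℝ) : 0 < yh θ D G g s := Real.exp_pos _

lemma yh_le_one (hθ : 0 < θ) (hθ1 : θ ≤ 1) (hD : 1 ≤ D) {s : ℝ} (hs : 0 ≤ s)
    (g : Finset (Fin n)) : yh θ D G g s ≤ 1 := by
  refine Real.exp_le_one_iff.2 (neg_nonpos.2 ?_)
  have h1 := (abs_le.1 (abs_xs (G := G) hθ hD g)).1
  have h2 := eta_le hθ hD
  exact div_nonneg (mul_nonneg (tau_nonneg (by linarith) hs) (by linarith)) zero_le_two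

lemma yh_sub_le (hθ : 0 < θ) (hθ1 : θ ≤ 1) (hD : 1 ≤ D) {s : ℝ} (hs : 0 ≤ s)
    (g : Finset (Fin n)) :
    |yh θ D G g s - Real.exp (-(tau D s / 2))| ≤ θ * Real.exp (-(tau D s / 2)) := by
  have h1 := tau_mul_xs (G := G) hθ hD hs g
  have hu : |-(tau D s * xs θ D G g / 2)| ≤ θ / 2 := by
    rw [abs_neg, abs_div, abs_of_pos (by norm_num : (0 : ℝ) < 2)]; linarith
  have h2 := abs_exp_sub_one_le_two (le_trans hu (by linarith))
  have heq : yh θ D G g s - Real.exp (-(tau D s / 2)) =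
      Real.exp (-(tau D s / 2)) * (Real.exp (-(tau D s * xs θ D G g / 2)) - 1) := by
    rw [yh, mul_sub, mul_one, ← Real.exp_add]; congr 2; ring
  rw [heq, abs_mul, abs_of_pos (Real.exp_pos _), mul_comm θ]
  exact mul_le_mul_of_nonneg_left (by linarith) (Real.exp_pos _).le

lemma yh_le (hθ : 0 < θ) (hθ1 : θ ≤ 1) (hD : 1 ≤ D) {s : ℝ} (hs : 0 ≤ s)
    (g : Finset (Fin n)) : yh θ D G g s ≤ 2 * Real.exp (-(tau D s / 2)) := by
  have := (abs_le.1 (yh_sub_le (G := G) hθ hθ1 hD hs g)).2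
  nlinarith [Real.exp_pos (-(tau D s / 2))]

lemma rv_pos (hJ : IsCav G J) (g : Finset (Fin n)) {s : ℝ} (hs : 0 ≤ s) :
    0 < rv G J θ D g s := div_pos (yv_mem hJ g hs).1 (yh_pos g s)

lemma log_rv (hJ : IsCav G J) (g : Finset (Fin n)) {s : ℝ} (hs : 0 ≤ s) :
    Real.log (rv G J θ D g s) = lr G J θ D g s := by
  rw [rv, Real.log_div (yv_mem hJ g hs).1.ne' (yh_pos g s).ne', yh, Real.log_exp, lr]
  ring

lemma hv_eq (hJ : IsCav G J) (g : Finset (Fin n)) {s : ℝ} (hs : 0 ≤ s) :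
    hv G J θ D g s = yh θ D G g s * ent (rv G J θ D g s) := by
  rw [ent, log_rv hJ g hs, rv, hv]
  have := (yh_pos (G := G) (θ := θ) (D := D) g s).ne'
  field_simp

lemma hv_nonneg (hJ : IsCav G J) (g : Finset (Fin n)) {s : ℝ} (hs : 0 ≤ s) :
    0 ≤ hv G J θ D g s := by
  rw [hv_eq hJ g hs]
  exact mul_nonneg (yh_pos g s).le (ent_nonneg (rv_pos hJ g hs))

lemma hv_zero (hJ : IsCav G J) (g : Finset (Fin n)) : hv G J θ D g 0 = 0 := by
  simp [hv, lr, yh, yv_zero hJ g, tau_zero]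

lemma hasDeriv_hv (hJ : IsCav G J) (hD : 1 ≤ D) (g : Finset (Fin n)) {s : ℝ} (hs : 0 ≤ s) :
    HasDerivWithinAt (hv G J θ D g)
      ((-∑ F ∈ tr G g, fire G J F s) * lr G J θ D g s +
        dtau D s * (1 + xs θ D G g) / 2 * (yv G J g s - yh θ D G g s)) (Set.Ici 0) s := by
  have hy := hasDeriv_yv hJ g hs
  have hpos := (yv_mem hJ g hs).1
  have ht : HasDerivWithinAt (fun v => tau D v * (1 + xs θ D G g) / 2)
      (dtau D s * (1 + xs θ D G g) / 2) (Set.Ici 0) s :=
    (((hasDeriv_tau (by linarith) hs).mul_const _).div_const 2).hasDerivWithinAt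
  have hl : HasDerivWithinAt (lr G J θ D g) _ (Set.Ici 0) s := (hy.log hpos.ne').add ht
  have he : HasDerivWithinAt (yh θ D G g) _ (Set.Ici 0) s := ht.neg.exp
  have h : HasDerivWithinAt (hv G J θ D g) _ (Set.Ici 0) s := ((hy.mul hl).sub hy).add he
  refine h.congr_deriv ?_
  simp only [yh, Pi.neg_apply]
  field_simp
  ring

lemma continuous_hbar (hJ : IsCav G J) (hD : 1 ≤ D) (g : Finset (Fin n)) :
    Continuous (hbar G J θ D g) := by
  have h : ContinuousOn (hv G J θ D g) (Set.Ici 0) :=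
    fun v hv => (hasDeriv_hv hJ hD g hv).continuousWithinAt
  exact (h.comp_continuous (continuous_id.max continuous_const)
    (fun u => le_max_right u 0)).min continuous_const

lemma hbar_mem (hJ : IsCav G J) (g : Finset (Fin n)) (u : ℝ) :
    0 ≤ hbar G J θ D g u ∧ hbar G J θ D g u ≤ 1 :=
  ⟨le_min (hv_nonneg hJ g (le_max_right _ _)) zero_le_one, min_le_right _ _⟩

lemma hasDeriv_wv (hJ : IsCav G J) (hD : 1 ≤ D) (g : Finset (Fin n)) (s : ℝ) :
    HasDerivAt (wv G J θ D g) (hbar G J θ D g s) s :=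
  ((continuous_hbar hJ hD g).integral_hasStrictDerivAt 0 s).hasDerivAt

lemma wv_zero (g : Finset (Fin n)) : wv G J θ D g 0 = 0 := intervalIntegral.integral_same

lemma wv_mem (hJ : IsCav G J) (hD : 1 ≤ D) (g : Finset (Fin n)) {s : ℝ} (hs : 0 ≤ s) :
    0 ≤ wv G J θ D g s ∧ wv G J θ D g s ≤ s := by
  refine ⟨intervalIntegral.integral_nonneg hs fun u _ => (hbar_mem hJ g u).1, ?_⟩
  calc wv G J θ D g s ≤ ∫ _u in (0 : ℝ)..s, (1 : ℝ) :=
        intervalIntegral.integral_mono_on hs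
          ((continuous_hbar hJ hD g).intervalIntegrable _ _) intervalIntegrable_const
          (fun u _ => (hbar_mem hJ g u).2)
    _ = s := by simp

/-! ### The tilts -/

lemma ev_arg_le (hθ : 0 < θ) (hD : 1 ≤ D) {s : ℝ} (hs : 0 ≤ s) {g F : Finset (Fin n)}
    (hF : F ∈ tr G g) :
    |-(tau D s / 2 * ∑ b ∈ (sides F).erase g, xs θ D G b)| ≤ θ := by
  have h2 : |∑ b ∈ (sides F).erase g, xs θ D G b| ≤ 2 * eta θ D := by
    refine (abs_sum_le_sum_abs _ _).trans ?_
    refine (sum_le_card_nsmul _ _ (eta θ D) fun b _ => abs_xs hθ hD b).trans ?_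
    rw [card_erase_side (mem_tr.1 hF).1 (mem_tr.1 hF).2]
    simp
  rw [abs_neg, abs_mul, abs_of_nonneg (by linarith [tau_nonneg (s := s) (D := D) (by linarith) hs])]
  calc tau D s / 2 * |∑ b ∈ (sides F).erase g, xs θ D G b| ≤ tau D s / 2 * (2 * eta θ D) :=
        mul_le_mul_of_nonneg_left h2 (by linarith [tau_nonneg (s := s) (D := D) (by linarith) hs])
    _ = tau D s * eta θ D := by ring
    _ ≤ θ := tau_mul_eta hθ hD hs

lemma ev_le (hθ : 0 < θ) (hθ1 : θ ≤ 1) (hD : 1 ≤ D) {s : ℝ} (hs : 0 ≤ s) {g F : Finset (Fin n)}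
    (hF : F ∈ tr G g) : |ev G θ D g F s - 1| ≤ 2 * θ := by
  have h := ev_arg_le hθ hD hs hF
  exact (abs_exp_sub_one_le_two (h.trans hθ1)).trans (by linarith)

lemma sum_ev_sub (hθ : 0 < θ) (hθ1 : θ ≤ 1) (hD : 1 ≤ D) {s : ℝ} (hs : 0 ≤ s)
    (g : Finset (Fin n)) :
    |∑ F ∈ tr G g, ev G θ D g F s - (deg G g : ℝ)| ≤ 2 * θ * (deg G g : ℝ) := by
  rw [← card_tr, show ((tr G g).card : ℝ) = ∑ _F ∈ tr G g, (1 : ℝ) by simp, ← sum_sub_distrib,
    mul_sum]
  refine (abs_sum_le_sum_abs _ _).trans (sum_le_sum fun F hF => ?_)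
  rw [mul_one]
  exact ev_le hθ hθ1 hD hs hF

lemma ph_eq {s : ℝ} (hD : 1 ≤ D) (hs : 0 ≤ s) {g F : Finset (Fin n)} (hF : F ∈ tr G g) :
    ph G θ D F s = yh θ D G g s * (dtau D s / (2 * D)) * ev G θ D g F s := by
  have h2 : dtau D s / (2 * D) = Real.exp (-s) * Real.exp (-tau D s) := by
    rw [dtau_eq (by linarith) hs]; field_simp
  have h3 : ∑ b ∈ (sides F).erase g, (-(tau D s * (1 + xs θ D G b) / 2)) =
      -tau D s + -(tau D s / 2 * ∑ b ∈ (sides F).erase g, xs θ D G b) := by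
    have hc : ∀ b ∈ (sides F).erase g, -(tau D s * (1 + xs θ D G b) / 2) =
        -(tau D s / 2) + -(tau D s / 2 * xs θ D G b) := fun b _ => by ring
    rw [sum_congr rfl hc, sum_add_distrib, sum_const,
      card_erase_side (mem_tr.1 hF).1 (mem_tr.1 hF).2, sum_neg_distrib, mul_sum, two_nsmul]
    ring
  rw [ph, ← mul_prod_erase _ _ (mem_tr.1 hF).2, h2, ev]
  simp only [yh]
  rw [← Real.exp_sum, h3, Real.exp_add]
  ring

lemma ph_le (hθ : 0 < θ) (hθ1 : θ ≤ 1) (hD : 1 ≤ D) {s : ℝ} (hs : 0 ≤ s) {F : Finset (Fin n)}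
    (hF : F ∈ tri G) :
    ph G θ D F s ≤ 4 * dtau D s / D * Real.exp (-(tau D s / 2)) := by
  obtain ⟨g, hg⟩ := sides_nonempty (mem_tri.1 hF).1
  have hF' : F ∈ tr G g := mem_tr.2 ⟨hF, hg⟩
  have h1 := (abs_le.1 (ev_le hθ hθ1 hD hs hF')).2
  have h2 := yh_le (G := G) hθ hθ1 hD hs g
  have h3 : 0 ≤ dtau D s / (2 * D) := div_nonneg (dtau_nonneg (by linarith) hs) (by linarith)
  rw [ph_eq hD hs hF']
  calc yh θ D G g s * (dtau D s / (2 * D)) * ev G θ D g F s
      ≤ 2 * Real.exp (-(tau D s / 2)) * (dtau D s / (2 * D)) * 3 := by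
        refine mul_le_mul (mul_le_mul_of_nonneg_right h2 h3) ?_ (Real.exp_pos _).le
          (by positivity)
        linarith
    _ = 3 * dtau D s / D * Real.exp (-(tau D s / 2)) := by field_simp
    _ ≤ _ := by
        have := dtau_nonneg (D := D) (by linarith) hs
        gcongr
        norm_num

/-! ### The derivative of the entropy -/

lemma deriv_step (hcert : CertFourStmt) (hJ : IsCav G J) (hD : 1 ≤ D) {s : ℝ} (hs : 0 ≤ s) :
    ∑ g ∈ G, ((-∑ F ∈ tr G g, fire G J F s) * lr G J θ D g s +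
        dtau D s * (1 + xs θ D G g) / 2 * (yv G J g s - yh θ D G g s)) ≤
      dtau D s * ∑ g ∈ G, (601 / 1000 * hv G J θ D g s *
          ((∑ F ∈ tr G g, ev G θ D g F s) / D) +
        1 / 2 * res G θ D g s * (yh θ D G g s - yv G J g s)) +
      750 * ∑ F ∈ tri G, ph G θ D F s * excess J F s ^ 2 := by
  have hD0 : D ≠ 0 := by linarith
  have hA : ∀ g ∈ G, (-∑ F ∈ tr G g, fire G J F s) * lr G J θ D g s +
        dtau D s * (1 + xs θ D G g) / 2 * (yv G J g s - yh θ D G g s) =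
      ∑ F ∈ tr G g, (-(fire G J F s * lr G J θ D g s) + ph G θ D F s * (rv G J θ D g s - 1)) +
        dtau D s * (1 / 2 * res G θ D g s * (yh θ D G g s - yv G J g s)) := by
    intro g _
    have h1 : ∀ F ∈ tr G g, ph G θ D F s * (rv G J θ D g s - 1) =
        (yv G J g s - yh θ D G g s) * (dtau D s / (2 * D)) * ev G θ D g F s := fun F hF => by
      rw [ph_eq hD hs hF, rv]
      have := (yh_pos (G := G) (θ := θ) (D := D) g s).ne'
      field_simp
    rw [sum_add_distrib, sum_congr rfl h1, ← mul_sum, sum_neg_distrib, ← sum_mul, res]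
    field_simp
    ring
  have hB : ∀ g ∈ G, ∑ F ∈ tr G g, ph G θ D F s * ent (rv G J θ D g s) =
      dtau D s * (1 / 2 * hv G J θ D g s * ((∑ F ∈ tr G g, ev G θ D g F s) / D)) := by
    intro g _
    rw [sum_congr rfl fun F hF => by rw [ph_eq (θ := θ) hD hs hF], ← sum_mul, ← mul_sum,
      hv_eq hJ g hs]
    field_simp
  have hC : ∀ F ∈ tri G,
      ∑ g ∈ sides F, (-(fire G J F s * lr G J θ D g s) + ph G θ D F s * (rv G J θ D g s - 1)) ≤
      601 / 500 * ∑ g ∈ sides F, ph G θ D F s * ent (rv G J θ D g s) +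
        750 * (ph G θ D F s * excess J F s ^ 2) := by
    intro F hF
    have hfire : fire G J F s =
        ph G θ D F s * (1 + excess J F s) * ∏ a ∈ sides F, rv G J θ D a s := by
      have : ∏ a ∈ sides F, yv G J a s =
          (∏ a ∈ sides F, yh θ D G a s) * ∏ a ∈ sides F, rv G J θ D a s := by
        rw [← prod_mul_distrib]
        refine prod_congr rfl fun a _ => ?_
        rw [rv]
        have := (yh_pos (G := G) (θ := θ) (D := D) a s).ne'
        field_simp
      rw [fire_eq hJ hF hs, this, ph]; ring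
    obtain ⟨a, b, c, hab, hac, hbc, he⟩ := sides_triple hF
    have hj := (excess_bounds hJ hF hs).1
    have htb := triangle_bound hcert (rv_pos (θ := θ) (D := D) hJ a hs)
      (rv_pos (θ := θ) (D := D) hJ b hs) (rv_pos (θ := θ) (D := D) hJ c hs) hj
    rw [log_rv hJ a hs, log_rv hJ b hs, log_rv hJ c hs] at htb
    have hph : 0 ≤ ph G θ D F s :=
      mul_nonneg (Real.exp_pos _).le (prod_nonneg fun x _ => (yh_pos x s).le)
    rw [hfire]
    simp only [he]
    rw [sum_insert (by simp [hab, hac]), sum_pair hbc, sum_insert (by simp [hab, hac]),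
      sum_pair hbc, prod_insert (by simp [hab, hac]), prod_pair hbc]
    have := mul_le_mul_of_nonneg_left htb hph
    nlinarith [this]
  have hS : ∑ g ∈ G, ∑ F ∈ tr G g,
        (-(fire G J F s * lr G J θ D g s) + ph G θ D F s * (rv G J θ D g s - 1)) ≤
      601 / 500 * ∑ g ∈ G, ∑ F ∈ tr G g, ph G θ D F s * ent (rv G J θ D g s) +
        750 * ∑ F ∈ tri G, ph G θ D F s * excess J F s ^ 2 := by
    rw [sum_tr_swap, sum_tr_swap G (fun g F => ph G θ D F s * ent (rv G J θ D g s)), mul_sum,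
      mul_sum, ← sum_add_distrib]
    exact sum_le_sum hC
  rw [sum_congr rfl hB] at hS
  rw [sum_congr rfl hA, sum_add_distrib]
  refine (add_le_add hS le_rfl).trans (le_of_eq ?_)
  rw [sum_add_distrib, ← mul_sum, ← mul_sum, mul_add]
  have : ∑ g ∈ G, 601 / 1000 * hv G J θ D g s * ((∑ F ∈ tr G g, ev G θ D g F s) / D) =
      601 / 500 * ∑ g ∈ G, 1 / 2 * hv G J θ D g s * ((∑ F ∈ tr G g, ev G θ D g F s) / D) := by
    rw [mul_sum]; exact sum_congr rfl fun g _ => by ring
  rw [this]; ring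

end Vale.Agent.P046.Full.Four
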